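import Crest.Agent.DR.Merge

/-! Merging a measure on bounded jumps into finitely many coordinates. -/

set_option autoImplicit false
set_option linter.unusedSectionVars false
set_option linter.unusedVariables false
open Finset

namespace Crest.Agent.DR

lemma lin_div {Θ : Type*} [Fintype Θ] (a c : Θ → ℝ) (J : ℝ) :
    lin (fun θ => a θ / J) c = lin a c / J := by
  unfold lin; rw [Finset.sum_div]; exact Finset.sum_congr rfl fun θ _ => by ring

theorem assemble {p : ℝ} (hp : 1 ≤ p) {η : ℝ} (hη : 0 < η) (hη1 : η ≤ 1) :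
    ∃ C : ℝ, 1 ≤ C ∧ ∀ (Θ I : Type) [Fintype Θ] [Fintype I] [Nonempty I] (ν : Θ → ℝ)
      (ξ β γ : I → Θ → ℝ) (κ N J A1 A2 G Λ : ℝ), (∀ θ, 0 ≤ ν θ) → (∀ i θ, ξ i θ = β i θ + γ i θ) →
      0 < κ → 1 ≤ N → 1 ≤ J → 1 ≤ Λ → 2 ^ p * (κ * N) ≤ η / 5 →
      (∀ i, ∑ θ, ν θ * (if β i θ = 0 then 0 else 1) ≤ N) →
      (∀ i θ, |ξ i θ| ≤ J) → (∀ i, ∑ θ, ν θ * ξ i θ ^ 2 ≤ N * J ^ 2) →
      (∀ i, A1 ≤ ∑ θ, ν θ * |β i θ| ^ p) → (∀ i, ∑ θ, ν θ * |β i θ| ^ p ≤ A2) →
      ((p ≤ 2 ∧ ∀ i, ∑ θ, ν θ * |γ i θ| ^ p ≤ G) ∨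
        (2 ≤ p ∧ (∀ i θ, |γ i θ| ≤ 1) ∧ (∀ i, ∑ θ, ν θ * γ i θ ^ 2 ≤ N) ∧ N ≤ G)) →
      C * Fintype.card I * (2 * J) ^ p ≤ κ * Real.exp Λ →
      ∃ d : ℕ, 0 < d ∧
        (d : ℝ) ≤ 4 * ((2 * J * Λ) ^ p) ^ 2 * Real.log (2 * Fintype.card I) / κ ^ 2 + 1 ∧
        ∃ s : Fin d → Θ → ℝ, ∀ i,
          d * κ * ((A1 / (1 + η) - C * G) / (1 + η) - 2) ≤ ∑ l, |lin (ξ i) (s l)| ^ p ∧
          ∑ l, |lin (ξ i) (s l)| ^ p ≤ d * κ * ((1 + η) * ((1 + η) * A2) + C * G + 1) := by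
  classical
  have hp0 : 0 < p := by linarith
  obtain ⟨C1, hC1, hsplit⟩ := split_ineq hp hη
  obtain ⟨C2, hC2, hcosh⟩ := rpow_le_cosh hp0.le
  obtain ⟨C3, hC3, hcosh'⟩ : ∃ C : ℝ, 1 ≤ C ∧ (2 ≤ p → ∀ z : ℝ, |z| ^ p ≤ C * (Real.cosh z - 1)) := by
    by_cases h : 2 ≤ p
    · obtain ⟨C, hC, h'⟩ := rpow_le_cosh_sub h
      exact ⟨C, hC, fun _ => h'⟩
    · exact ⟨1, le_rfl, fun h' => absurd h' h⟩
  have hC13 : 1 ≤ C1 * (2 * C3) := by nlinarith
  refine ⟨C1 * (2 * C3) + 6 * C2, by linarith, ?_⟩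
  intro Θ I _ _ _ ν ξ β γ κ N J A1 A2 G Λ hν hξ hκ hN hJ hΛ hκN hrate hξJ hξ2 hA1 hA2 hsm hΛ2
  have h2p : (1 : ℝ) ≤ 2 ^ p := Real.one_le_rpow one_le_two hp0.le
  have hκN0 : 0 < κ * N := by positivity
  have hκN1 : κ * N ≤ η / 5 := by nlinarith
  have hκ1 : κ ≤ 1 := by nlinarith
  obtain ⟨M, hM⟩ := exists_nat_gt (κ * ∑ θ, ν θ)
  have hν0 : 0 ≤ κ * ∑ θ, ν θ := mul_nonneg hκ.le (Finset.sum_nonneg fun θ _ => hν θ)
  have hM0 : (0 : ℝ) < M := by linarith
  set q : Θ → ℝ := fun θ => κ * ν θ / M with hqdef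
  have hq : ∀ θ, 0 ≤ q θ := fun θ => div_nonneg (mul_nonneg hκ.le (hν θ)) hM0.le
  have hqs : ∀ f : Θ → ℝ, M * ∑ θ, q θ * f θ = κ * ∑ θ, ν θ * f θ := by
    intro f
    rw [Finset.mul_sum, Finset.mul_sum]
    refine Finset.sum_congr rfl fun θ _ => ?_
    simp only [hqdef]; field_simp
  have hq1 : ∑ θ, q θ ≤ 1 := by
    have := hqs (fun _ => 1)
    simp only [mul_one] at this
    exact le_of_mul_le_mul_left (by linarith) hM0
  set m := mean q hq hq1 M with hm
  -- the rare part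
  have hx : ∀ i, M * ∑ θ, q θ * (if β i θ = 0 then 0 else 1) ≤ κ * N := fun i => by
    rw [hqs]; exact mul_le_mul_of_nonneg_left (hrate i) hκ.le
  have hb0 : ∀ i, 0 ≤ ∑ θ, ν θ * |β i θ| ^ p := fun i =>
    Finset.sum_nonneg fun θ _ => mul_nonneg (hν θ) (Real.rpow_nonneg (abs_nonneg _) _)
  have hβlo : ∀ i, κ * (A1 / (1 + η)) ≤ m.E (fun c => |lin (β i) c| ^ p) := by
    intro i
    have h1 := mean_lower hq hq1 hp (β i) M (κ * N) (hx i)
    rw [hqs] at h1
    refine le_trans ?_ h1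
    have h2 : 1 / (1 + η) ≤ 1 - κ * N := by
      rw [div_le_iff₀ (by linarith)]; nlinarith
    have h3 : A1 / (1 + η) ≤ (∑ θ, ν θ * |β i θ| ^ p) * (1 - κ * N) := by
      calc A1 / (1 + η) ≤ (∑ θ, ν θ * |β i θ| ^ p) / (1 + η) :=
            div_le_div_of_nonneg_right (hA1 i) (by linarith)
        _ = (∑ θ, ν θ * |β i θ| ^ p) * (1 / (1 + η)) := by ring
        _ ≤ _ := mul_le_mul_of_nonneg_left h2 (hb0 i)
    rw [mul_assoc]
    exact mul_le_mul_of_nonneg_left h3 hκ.le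
  have hβhi : ∀ i, m.E (fun c => |lin (β i) c| ^ p) ≤ κ * ((1 + η) * A2) := by
    intro i
    have h1 := mean_upper hq hq1 hp (β i) M (κ * N) (hx i)
    rw [hqs] at h1
    refine h1.trans ?_
    have h0 : 0 ≤ 2 ^ p * (κ * N) := by positivity
    have h2 := exp_le_of_le_one h0 (by linarith)
    have h3 : (1 + 2 ^ p * (κ * N)) * Real.exp (2 ^ p * (κ * N)) ≤ 1 + η := by
      have := mul_le_mul_of_nonneg_left h2 (show 0 ≤ 1 + 2 ^ p * (κ * N) by linarith)
      nlinarith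
    rw [mul_assoc]
    refine mul_le_mul_of_nonneg_left ?_ hκ.le
    rw [mul_comm (1 + η) A2]
    exact mul_le_mul (hA2 i) h3 (by positivity) ((hb0 i).trans (hA2 i))
  -- the small part
  have hG0 : 0 ≤ G := by
    rcases hsm with ⟨_, h⟩ | ⟨_, _, _, h⟩
    · obtain ⟨i⟩ := ‹Nonempty I›
      exact le_trans (Finset.sum_nonneg fun θ _ =>
        mul_nonneg (hν θ) (Real.rpow_nonneg (abs_nonneg _) _)) (h i)
    · linarith
  have hγ : ∀ i, m.E (fun c => |lin (γ i) c| ^ p) ≤ κ * (2 * C3 * G) := by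
    intro i
    rcases hsm with ⟨h2, h⟩ | ⟨h2, h, h', h''⟩
    · have h1 := mean_sub hq hq1 hp0 h2 (γ i) M
      rw [hqs] at h1
      refine h1.trans (mul_le_mul_of_nonneg_left ?_ hκ.le)
      have := h i
      nlinarith
    · have h1 := mean_cosh hq hq1 (γ i) M
      rw [hqs] at h1
      have h3 : ∑ θ, ν θ * (Real.cosh (γ i θ) - 1) ≤ N :=
        le_trans (Finset.sum_le_sum fun θ _ =>
          mul_le_mul_of_nonneg_left (cosh_sub_le (h i θ)) (hν θ)) (h' i)
      have h4 := h1.trans (Real.exp_le_exp.2 (mul_le_mul_of_nonneg_left h3 hκ.le))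
      have h5 := exp_le_of_le_one hκN0.le (by linarith)
      have h6 : m.E (fun c => |lin (γ i) c| ^ p)
          ≤ m.E (fun c => C3 * (Real.cosh (lin (γ i) c) - 1)) := m.mono fun c => hcosh' h2 _
      rw [m.smul, m.sub, m.const] at h6
      have h7 : m.E (fun c => Real.cosh (lin (γ i) c)) - 1 ≤ 2 * (κ * G) := by
        have := mul_le_mul_of_nonneg_left h'' hκ.le
        linarith
      have := mul_le_mul_of_nonneg_left h7 (show 0 ≤ C3 by linarith)
      linarith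
  have hlin : ∀ i c, lin (ξ i) c = lin (β i) c + lin (γ i) c := by
    intro i c
    unfold lin
    rw [← Finset.sum_add_distrib]
    exact Finset.sum_congr rfl fun θ _ => by rw [hξ]; ring
  have hCG : C1 * (2 * C3 * G) ≤ (C1 * (2 * C3) + 6 * C2) * G := by nlinarith
  have hUhi : ∀ i, m.E (fun c => |lin (ξ i) c| ^ p)
      ≤ κ * ((1 + η) * ((1 + η) * A2) + (C1 * (2 * C3) + 6 * C2) * G) := by
    intro i
    have h1 : m.E (fun c => |lin (ξ i) c| ^ p)
        ≤ m.E (fun c => (1 + η) * |lin (β i) c| ^ p + C1 * |lin (γ i) c| ^ p) :=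
      m.mono fun c => by rw [hlin]; exact hsplit _ _
    rw [m.add, m.smul, m.smul] at h1
    have h2 := mul_le_mul_of_nonneg_left (hβhi i) (show 0 ≤ 1 + η by linarith)
    have h3 := mul_le_mul_of_nonneg_left (hγ i) (show 0 ≤ C1 by linarith)
    have h4 := mul_le_mul_of_nonneg_left hCG hκ.le
    linarith
  have hUlo : ∀ i, κ * ((A1 / (1 + η) - (C1 * (2 * C3) + 6 * C2) * G) / (1 + η))
      ≤ m.E (fun c => |lin (ξ i) c| ^ p) := by
    intro i
    have h1 : m.E (fun c => |lin (β i) c| ^ p)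
        ≤ m.E (fun c => (1 + η) * |lin (ξ i) c| ^ p + C1 * |lin (γ i) c| ^ p) :=
      m.mono fun c => by
        have := hsplit (lin (ξ i) c) (-lin (γ i) c)
        rwa [abs_neg, show lin (ξ i) c + -lin (γ i) c = lin (β i) c by rw [hlin]; ring] at this
    rw [m.add, m.smul, m.smul] at h1
    have h2 := hβlo i
    have h3 := mul_le_mul_of_nonneg_left (hγ i) (show 0 ≤ C1 by linarith)
    have h4 := mul_le_mul_of_nonneg_left hCG hκ.le
    rw [← mul_div_assoc, div_le_iff₀ (by linarith)]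
    linarith
  -- truncation
  have hJ0 : 0 < J := by linarith
  have hch : ∀ i, m.E (fun c => Real.cosh (lin (ξ i) c / J)) ≤ 3 := by
    intro i
    have h1 := mean_cosh hq hq1 (fun θ => ξ i θ / J) M
    rw [hqs] at h1
    simp only [lin_div] at h1
    have h3 : ∑ θ, ν θ * (Real.cosh (ξ i θ / J) - 1) ≤ N := by
      have a1 : ∑ θ, ν θ * (Real.cosh (ξ i θ / J) - 1) ≤ ∑ θ, ν θ * ξ i θ ^ 2 / J ^ 2 := by
        refine Finset.sum_le_sum fun θ _ => ?_
        rw [mul_div_assoc, ← div_pow]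
        refine mul_le_mul_of_nonneg_left (cosh_sub_le ?_) (hν θ)
        rw [abs_div, abs_of_pos hJ0, div_le_one hJ0]; exact hξJ i θ
      rw [← Finset.sum_div] at a1
      refine a1.trans ?_
      rw [div_le_iff₀ (by positivity)]; exact hξ2 i
    have h4 := h1.trans (Real.exp_le_exp.2 (mul_le_mul_of_nonneg_left h3 hκ.le))
    have h5 := exp_le_of_le_one hκN0.le (by linarith)
    linarith
  set L := 2 * J * Λ with hL
  have hL1 : 1 ≤ L := by nlinarith
  set tr : (Θ → ℝ) → (Θ → ℝ) := fun c => if ∀ i, |lin (ξ i) c| ≤ L then c else 0 with htr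
  set W : I → (Θ → ℝ) → ℝ := fun i c => |lin (ξ i) (tr c)| ^ p with hW
  have hW0 : ∀ i c, 0 ≤ W i c := fun i c => Real.rpow_nonneg (abs_nonneg _) _
  have hWR : ∀ i c, W i c ≤ L ^ p := by
    intro i c
    refine Real.rpow_le_rpow (abs_nonneg _) ?_ hp0.le
    simp only [htr]
    split_ifs with h
    · exact h i
    · rw [lin_zero, abs_zero]; linarith
  have hWhi : ∀ i, m.E (W i) ≤ m.E (fun c => |lin (ξ i) c| ^ p) := by
    intro i
    refine m.mono fun c => ?_
    simp only [hW, htr]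
    split_ifs with h
    · exact le_rfl
    · rw [lin_zero, abs_zero, Real.zero_rpow hp0.ne']
      exact Real.rpow_nonneg (abs_nonneg _) _
  have hWlo : ∀ i, m.E (fun c => |lin (ξ i) c| ^ p) ≤ m.E (W i) + κ := by
    intro i
    set B : ℝ := C2 * (2 * J) ^ p * Real.exp (-Λ) with hB
    have hB0 : 0 ≤ B := by positivity
    have h1 : m.E (fun c => |lin (ξ i) c| ^ p) ≤ m.E (fun c => W i c + B * ∑ f,
        (Real.cosh (lin (ξ i) c / J) + Real.cosh (lin (ξ f) c / J))) := by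
      refine m.mono fun c => ?_
      have hs0 : ∀ f, 0 ≤ Real.cosh (lin (ξ i) c / J) + Real.cosh (lin (ξ f) c / J) :=
        fun f => add_nonneg (Real.cosh_pos _).le (Real.cosh_pos _).le
      simp only [hW, htr]
      split_ifs with h
      · have := mul_nonneg hB0 (Finset.sum_nonneg fun f (_ : f ∈ univ) => hs0 f)
        linarith
      · push Not at h
        obtain ⟨f, hf⟩ := h
        rw [lin_zero, abs_zero, Real.zero_rpow hp0.ne', zero_add]
        refine le_trans ?_ (mul_le_mul_of_nonneg_left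
          (Finset.single_le_sum (f := fun f => Real.cosh (lin (ξ i) c / J)
            + Real.cosh (lin (ξ f) c / J)) (fun f _ => hs0 f) (mem_univ f)) hB0)
        have a1 := hcosh (lin (ξ i) c / (2 * J))
        rw [abs_div, abs_of_pos (show 0 < 2 * J by linarith),
          Real.div_rpow (abs_nonneg _) (by linarith), div_le_iff₀ (by positivity)] at a1
        have a2 := exp_abs_le (lin (ξ f) c / (2 * J))
        have a3 : Real.exp Λ ≤ Real.exp |lin (ξ f) c / (2 * J)| := by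
          rw [Real.exp_le_exp, abs_div, abs_of_pos (show 0 < 2 * J by linarith),
            le_div_iff₀ (by linarith)]
          linarith
        have a4 := cosh_mul_le (lin (ξ i) c / (2 * J)) (lin (ξ f) c / (2 * J))
        rw [show 2 * (lin (ξ i) c / (2 * J)) = lin (ξ i) c / J by field_simp,
          show 2 * (lin (ξ f) c / (2 * J)) = lin (ξ f) c / J by field_simp] at a4
        have a5 : 1 ≤ Real.exp (-Λ) * (2 * Real.cosh (lin (ξ f) c / (2 * J))) := by
          have : Real.exp (-Λ) * Real.exp Λ = 1 := by rw [← Real.exp_add]; simp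
          rw [← this]
          exact mul_le_mul_of_nonneg_left (a3.trans a2) (Real.exp_pos _).le
        have a6 : 0 ≤ C2 * Real.cosh (lin (ξ i) c / (2 * J)) * (2 * J) ^ p := by
          have := (Real.cosh_pos (lin (ξ i) c / (2 * J))).le
          positivity
        have a7 := mul_le_mul_of_nonneg_left a5 a6
        have a8 := mul_le_mul_of_nonneg_left a4 hB0
        simp only [hB] at a8 ⊢
        nlinarith
    rw [m.add, m.smul, m.sum] at h1
    have h2 : ∑ f : I, m.E (fun c => Real.cosh (lin (ξ i) c / J) + Real.cosh (lin (ξ f) c / J))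
        ≤ ∑ f : I, (6 : ℝ) := Finset.sum_le_sum fun f _ => by
      rw [m.add]; linarith [hch i, hch f]
    rw [Finset.sum_const, Finset.card_univ, nsmul_eq_mul] at h2
    have h3 := mul_le_mul_of_nonneg_left h2 hB0
    have h4 : B * (Fintype.card I * 6) ≤ κ := by
      have a1 : 6 * C2 * Fintype.card I * (2 * J) ^ p ≤ κ * Real.exp Λ := by
        refine le_trans ?_ hΛ2
        have : 0 ≤ (C1 * (2 * C3)) * (Fintype.card I * (2 * J) ^ p) := by positivity
        nlinarith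
      have a2 := mul_le_mul_of_nonneg_right a1 (Real.exp_pos (-Λ)).le
      have a3 : Real.exp Λ * Real.exp (-Λ) = 1 := by rw [← Real.exp_add]; simp
      rw [mul_assoc κ, a3] at a2
      simp only [hB]
      linarith
    linarith
  -- sampling
  have hI : (1 : ℝ) ≤ Fintype.card I := by exact_mod_cast Fintype.card_pos
  have hlog : 0 < Real.log (2 * Fintype.card I) := Real.log_pos (by linarith)
  have hLp : 1 ≤ L ^ p := Real.one_le_rpow hL1 hp0.le
  set d := ⌈4 * (L ^ p) ^ 2 * Real.log (2 * Fintype.card I) / κ ^ 2⌉₊ with hd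
  have hdpos : 0 < 4 * (L ^ p) ^ 2 * Real.log (2 * Fintype.card I) / κ ^ 2 := by positivity
  obtain ⟨s, hs⟩ := m.sample W (L ^ p) κ hκ (by linarith) hW0 hWR d (by
    have := Nat.le_ceil (4 * (L ^ p) ^ 2 * Real.log (2 * Fintype.card I) / κ ^ 2)
    rwa [div_le_iff₀ (by positivity)] at this)
  refine ⟨d, Nat.ceil_pos.2 hdpos, (Nat.ceil_lt_add_one hdpos.le).le, fun l => tr (s l),
    fun i => ?_⟩
  have h1 := abs_le.1 (hs i)
  have hd0 : (0 : ℝ) ≤ d := Nat.cast_nonneg _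
  have h2 := mul_le_mul_of_nonneg_left ((hWhi i).trans (hUhi i)) hd0
  have h3 := mul_le_mul_of_nonneg_left ((hUlo i).trans (hWlo i)) hd0
  simp only [hW] at h1 h2 h3
  constructor <;> nlinarith [h1.1, h1.2]

end Crest.Agent.DR
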