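import Crest.Agent.DR.Ineq

/-! Dyadic truncation, band multipliers and window averages. -/

set_option autoImplicit false
set_option linter.unusedVariables false
open Finset

namespace Crest.Agent.DR

noncomputable def lam (a : ℝ) (u : ℕ) : ℝ := a * 2 ^ u

noncomputable def lo (a : ℝ) (u : ℕ) (t : ℝ) : ℝ := if |t| ≤ lam a u then t else 0

noncomputable def tau (W K : ℕ) (a : ℝ) (s : ℕ) (t : ℝ) : ℝ :=
  (∑ b ∈ range W, (lo a (s + K * W + b) t - lo a (s + b) t)) / W

lemma lam_pos {a : ℝ} (ha : 0 < a) (u : ℕ) : 0 < lam a u := by unfold lam; positivity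

lemma lam_mono {a : ℝ} (ha : 0 < a) {u v : ℕ} (h : u ≤ v) : lam a u ≤ lam a v :=
  mul_le_mul_of_nonneg_left (pow_le_pow_right₀ one_le_two h) ha.le

lemma lam_add (a : ℝ) (u v : ℕ) : lam a (u + v) = lam a u * 2 ^ v := by
  unfold lam; rw [pow_add]; ring

lemma geo_lo {q : ℝ} (hq : 0 < q) : ∃ C : ℝ, 1 ≤ C ∧ ∀ a : ℝ, 0 < a → ∀ t : ℝ, 0 ≤ t → ∀ U : ℕ,
    ∑ u ∈ range U, (if lam a u < t then lam a u ^ q else 0) ≤ C * t ^ q := by
  have hβ : (1 : ℝ) < 2 ^ q := Real.one_lt_rpow one_lt_two hq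
  refine ⟨2 ^ q / (2 ^ q - 1), by rw [le_div_iff₀ (by linarith)]; linarith, fun a ha t ht U => ?_⟩
  have h1 : ∀ U, ∑ u ∈ range U, lam a u ^ q ≤ lam a U ^ q / (2 ^ q - 1) := by
    intro U
    induction U with
    | zero =>
      simp only [range_zero, sum_empty]
      exact div_nonneg (Real.rpow_nonneg (lam_pos ha _).le _) (by linarith)
    | succ U ih =>
      rw [Finset.sum_range_succ, lam_add, pow_one, Real.mul_rpow (lam_pos ha _).le zero_le_two]
      refine (add_le_add ih le_rfl).trans (le_of_eq ?_)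
      have : (2 : ℝ) ^ q - 1 ≠ 0 := by linarith
      field_simp; ring
  induction U with
  | zero =>
    simp only [range_zero, sum_empty]
    exact mul_nonneg (div_nonneg (by linarith) (by linarith)) (Real.rpow_nonneg ht _)
  | succ U ih =>
    by_cases h : lam a U < t
    · have h2 : ∑ u ∈ range (U + 1), (if lam a u < t then lam a u ^ q else 0)
          ≤ ∑ u ∈ range (U + 1), lam a u ^ q := Finset.sum_le_sum fun u _ => by
        split_ifs
        · exact le_rfl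
        · exact Real.rpow_nonneg (lam_pos ha _).le _
      refine h2.trans ((h1 _).trans ?_)
      rw [lam_add, pow_one, Real.mul_rpow (lam_pos ha _).le zero_le_two, div_mul_eq_mul_div,
        mul_comm]
      refine div_le_div_of_nonneg_right (mul_le_mul_of_nonneg_left ?_ (by linarith)) (by linarith)
      exact Real.rpow_le_rpow (lam_pos ha _).le h.le hq.le
    · rw [Finset.sum_range_succ, if_neg h, add_zero]; exact ih

lemma geo_hi {q : ℝ} (hq : 0 < q) : ∃ C : ℝ, 1 ≤ C ∧ ∀ a : ℝ, 0 < a → ∀ t : ℝ, 0 < t → ∀ U : ℕ,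
    ∑ u ∈ range U, (if t ≤ lam a u then lam a u ^ (-q) else 0) ≤ C * t ^ (-q) := by
  have hβ : (1 : ℝ) < 2 ^ q := Real.one_lt_rpow one_lt_two hq
  have hC : 1 ≤ (2 : ℝ) ^ q / (2 ^ q - 1) := by rw [le_div_iff₀ (by linarith)]; linarith
  refine ⟨2 ^ q / (2 ^ q - 1), hC, fun a ha t ht U => ?_⟩
  have key : ∀ U, ∑ u ∈ range U, (if t ≤ lam a u then lam a u ^ (-q) else 0)
      + 2 ^ q / (2 ^ q - 1) * max t (lam a U) ^ (-q) ≤ 2 ^ q / (2 ^ q - 1) * t ^ (-q) := by
    intro U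
    induction U with
    | zero =>
      simp only [range_zero, sum_empty, zero_add]
      exact mul_le_mul_of_nonneg_left
        (Real.rpow_le_rpow_of_nonpos ht (le_max_left _ _) (by linarith)) (by linarith)
    | succ U ih =>
      rw [Finset.sum_range_succ]
      by_cases h : t ≤ lam a U
      · rw [if_pos h]
        rw [max_eq_right h] at ih
        rw [max_eq_right (h.trans (lam_mono ha (Nat.le_add_right U 1))), lam_add, pow_one,
          Real.mul_rpow (lam_pos ha _).le zero_le_two, Real.rpow_neg zero_le_two]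
        refine le_trans (le_of_eq ?_) ih
        have : (2 : ℝ) ^ q - 1 ≠ 0 := by linarith
        have : (2 : ℝ) ^ q ≠ 0 := by linarith
        field_simp; ring
      · rw [if_neg h, add_zero]
        rw [max_eq_left (not_le.1 h).le] at ih
        refine le_trans (add_le_add le_rfl (mul_le_mul_of_nonneg_left
          (Real.rpow_le_rpow_of_nonpos ht (le_max_left _ _) (by linarith)) (by linarith))) ih
  have h1 := key U
  have h2 : 0 ≤ (2 : ℝ) ^ q / (2 ^ q - 1) * max t (lam a U) ^ (-q) :=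
    mul_nonneg (by linarith) (Real.rpow_nonneg (ht.le.trans (le_max_left _ _)) _)
  linarith

lemma exists_lev {a : ℝ} (ha : 0 < a) (t : ℝ) : ∃ l : ℕ, ∀ u, |t| ≤ lam a u ↔ l ≤ u := by
  have hex : ∃ u, |t| ≤ lam a u := by
    obtain ⟨u, hu⟩ := pow_unbounded_of_one_lt (|t| / a) (one_lt_two (α := ℝ))
    refine ⟨u, ?_⟩
    rw [div_lt_iff₀ ha] at hu
    unfold lam; linarith
  classical
  refine ⟨Nat.find hex, fun u => ⟨fun h => Nat.find_min' hex h, fun h => ?_⟩⟩
  exact (Nat.find_spec hex).trans (lam_mono ha h)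

lemma abs_lo_le {a : ℝ} (ha : 0 < a) (u : ℕ) (t : ℝ) : |lo a u t| ≤ lam a u := by
  unfold lo; split_ifs with h
  · exact h
  · rw [abs_zero]; exact (lam_pos ha u).le

lemma abs_tau_le {W K : ℕ} (hW : 1 ≤ W) {a : ℝ} (ha : 0 < a) (s : ℕ) (t : ℝ) :
    |tau W K a s t| ≤ |t| := by
  have hW0 : (0 : ℝ) < W := by exact_mod_cast hW
  unfold tau
  rw [abs_div, abs_of_pos hW0, div_le_iff₀ hW0]
  refine (Finset.abs_sum_le_sum_abs _ _).trans ?_
  have : ∀ b ∈ range W, |lo a (s + K * W + b) t - lo a (s + b) t| ≤ |t| := by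
    intro b _
    unfold lo
    split_ifs <;> simp
  refine (Finset.sum_le_sum this).trans (le_of_eq ?_)
  simp [mul_comm]

lemma tau_ne {W K : ℕ} {a : ℝ} {s : ℕ} {t : ℝ} {l : ℕ} (hl : ∀ u, |t| ≤ lam a u ↔ l ≤ u)
    (h : tau W K a s t ≠ 0) : s < l ∧ l < s + (K + 1) * W := by
  by_contra hcon
  apply h
  unfold tau
  rw [Finset.sum_eq_zero, zero_div]
  intro b hb
  have hb' := Finset.mem_range.1 hb
  unfold lo
  simp only [hl]
  have e : (K + 1) * W = K * W + W := by ring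
  rw [e] at hcon
  generalize K * W = A at *
  split_ifs <;> first | omega | simp

lemma tau_eq {W K : ℕ} (hW : 1 ≤ W) {a : ℝ} {s : ℕ} {t : ℝ} {l : ℕ}
    (hl : ∀ u, |t| ≤ lam a u ↔ l ≤ u) (h1 : s + W ≤ l) (h2 : l ≤ s + K * W) :
    tau W K a s t = t := by
  have hW0 : (0 : ℝ) < W := by exact_mod_cast hW
  unfold tau
  rw [div_eq_iff hW0.ne']
  have : ∀ b ∈ range W, lo a (s + K * W + b) t - lo a (s + b) t = t := by
    intro b hb
    have hb' := Finset.mem_range.1 hb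
    unfold lo
    simp only [hl]
    rw [if_pos (by omega), if_neg (by omega), sub_zero]
  rw [Finset.sum_congr rfl this]
  simp [mul_comm]

lemma tau_supp {W K : ℕ} {a : ℝ} (ha : 0 < a) {s : ℕ} {t : ℝ} (h : tau W K a s t ≠ 0) :
    lam a s < |t| ∧ |t| ≤ lam a s * 2 ^ ((K + 1) * W) := by
  obtain ⟨l, hl⟩ := exists_lev ha t
  obtain ⟨h1, h2⟩ := tau_ne hl h
  refine ⟨?_, ?_⟩
  · by_contra hc
    have := (hl s).1 (not_lt.1 hc)
    omega
  · rw [← lam_add]; exact (hl _).2 h2.le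

lemma tau_main {p : ℝ} (hp : 0 < p) {W K U : ℕ} (hW : 1 ≤ W) (hK : 1 ≤ K) {a : ℝ} (ha : 0 < a)
    {t : ℝ} (ht : t = 0 ∨ lam a (K * W) < |t|) (hU : |t| ≤ lam a U) :
    ((K : ℝ) - 1) * W * |t| ^ p ≤ ∑ s ∈ range U, |tau W K a s t| ^ p ∧
      ∑ s ∈ range U, |tau W K a s t| ^ p ≤ ((K : ℝ) + 1) * W * |t| ^ p := by
  obtain ⟨l, hl⟩ := exists_lev ha t
  have hnn : ∀ s, 0 ≤ |tau W K a s t| ^ p := fun s => Real.rpow_nonneg (abs_nonneg _) _
  constructor
  · rcases ht with ht | ht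
    · rw [ht, abs_zero, Real.zero_rpow hp.ne', mul_zero]
      exact Finset.sum_nonneg fun s _ => Real.rpow_nonneg (abs_nonneg _) _
    · have h1 : K * W < l := by
        by_contra hc
        have := (hl _).2 (not_lt.1 hc)
        linarith
      have h2 : l ≤ U := (hl U).1 hU
      have hKW : W ≤ K * W := Nat.le_mul_of_pos_left W hK
      have h3 : ∑ s ∈ Ico (l - K * W) (l - W), |tau W K a s t| ^ p
          ≤ ∑ s ∈ range U, |tau W K a s t| ^ p :=
        Finset.sum_le_sum_of_subset_of_nonneg (fun s hs => by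
          rw [Finset.mem_Ico] at hs; rw [Finset.mem_range]; omega) (fun s _ _ => hnn s)
      refine le_trans (le_of_eq ?_) h3
      rw [Finset.sum_congr rfl (g := fun _ => |t| ^ p) (fun s hs => by
        rw [Finset.mem_Ico] at hs
        rw [tau_eq hW hl (by omega) (by omega)])]
      rw [Finset.sum_const, Nat.card_Ico, nsmul_eq_mul,
        show l - W - (l - K * W) = K * W - W by omega, Nat.cast_sub hKW]
      push_cast; ring
  · have h3 : ∑ s ∈ range U, |tau W K a s t| ^ p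
        ≤ ∑ s ∈ Ico (l - (K + 1) * W) l, |tau W K a s t| ^ p := by
      rw [← Finset.sum_filter_ne_zero (range U)]
      refine Finset.sum_le_sum_of_subset_of_nonneg (fun s hs => ?_) (fun s _ _ => hnn s)
      have hs := (Finset.mem_filter.1 hs).2
      have : tau W K a s t ≠ 0 := by
        intro h; rw [h, abs_zero, Real.zero_rpow hp.ne'] at hs; exact hs rfl
      obtain ⟨h1, h2⟩ := tau_ne hl this
      rw [Finset.mem_Ico]; omega
    refine h3.trans ?_
    have h4 : ∑ s ∈ Ico (l - (K + 1) * W) l, |tau W K a s t| ^ p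
        ≤ ∑ s ∈ Ico (l - (K + 1) * W) l, |t| ^ p :=
      Finset.sum_le_sum fun s _ => Real.rpow_le_rpow (abs_nonneg _) (abs_tau_le hW ha s t) hp.le
    refine h4.trans ?_
    rw [Finset.sum_const, Nat.card_Ico, nsmul_eq_mul]
    refine mul_le_mul_of_nonneg_right ?_ (Real.rpow_nonneg (abs_nonneg _) _)
    have : l - (l - (K + 1) * W) ≤ (K + 1) * W := by omega
    exact_mod_cast this

lemma shift_le {y : ℕ → ℝ} (hy : ∀ u, 0 ≤ y u) {U c V : ℕ} (h : U + c ≤ V) :
    ∑ s ∈ range U, y (s + c) ≤ ∑ u ∈ range V, y u := by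
  have h1 : ∑ u ∈ range (c + U), y u ≤ ∑ u ∈ range V, y u :=
    Finset.sum_le_sum_of_subset_of_nonneg (Finset.range_mono (by omega)) (fun u _ _ => hy u)
  rw [Finset.sum_range_add] at h1
  have h2 : 0 ≤ ∑ u ∈ range c, y u := Finset.sum_nonneg fun u _ => hy u
  simp_rw [add_comm c] at h1
  linarith

noncomputable def avg (W : ℕ) (x : ℕ → ℝ) (s : ℕ) : ℝ := (∑ b ∈ range W, x (s + b)) / W

lemma avg_nonneg (W : ℕ) {x : ℕ → ℝ} (hx : ∀ u, 0 ≤ x u) (s : ℕ) : 0 ≤ avg W x s :=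
  div_nonneg (Finset.sum_nonneg fun b _ => hx _) (Nat.cast_nonneg _)

lemma avg_rpow {p : ℝ} (hp : 1 ≤ p) {W : ℕ} (hW : 1 ≤ W) {x : ℕ → ℝ} (hx : ∀ u, 0 ≤ x u) (s : ℕ) :
    avg W x s ^ p ≤ avg W (fun u => x u ^ p) s := by
  have hW0 : (0 : ℝ) < W := by exact_mod_cast hW
  have h := Real.rpow_arith_mean_le_arith_mean_rpow (range W) (fun _ => 1 / (W : ℝ))
    (fun b => x (s + b)) (fun _ _ => by positivity) (by simp; field_simp) (fun b _ => hx _) hp
  unfold avg
  rw [Finset.sum_div, Finset.sum_div]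
  convert h using 2
  · exact Finset.sum_congr rfl fun b _ => by ring
  · ring

lemma sum_avg_le {W : ℕ} (hW : 1 ≤ W) {y : ℕ → ℝ} (hy : ∀ u, 0 ≤ y u) {U c V : ℕ}
    (h : U + c + W ≤ V) : ∑ s ∈ range U, avg W y (s + c) ≤ ∑ u ∈ range V, y u := by
  have hW0 : (0 : ℝ) < W := by exact_mod_cast hW
  unfold avg
  rw [← Finset.sum_div, div_le_iff₀ hW0, Finset.sum_comm]
  have : ∀ b ∈ range W, ∑ s ∈ range U, y (s + c + b) ≤ ∑ u ∈ range V, y u := by
    intro b hb
    have hb' := Finset.mem_range.1 hb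
    simp_rw [add_assoc]
    exact shift_le hy (by omega)
  refine (Finset.sum_le_sum this).trans (le_of_eq ?_)
  simp [mul_comm]

lemma avg_le_total {W : ℕ} {y : ℕ → ℝ} (hy : ∀ u, 0 ≤ y u) {s V : ℕ} (h : s + W ≤ V) :
    avg W y s ≤ (∑ u ∈ range V, y u) / W := by
  unfold avg
  refine div_le_div_of_nonneg_right ?_ (Nat.cast_nonneg _)
  simp_rw [add_comm s]
  exact shift_le hy (by omega)

lemma sum_avg_rpow_le {p : ℝ} (hp : 1 ≤ p) {W : ℕ} (hW : 1 ≤ W) {x : ℕ → ℝ} (hx : ∀ u, 0 ≤ x u)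
    {U c V : ℕ} (h : U + c + W ≤ V) :
    ∑ s ∈ range U, avg W x (s + c) ^ p ≤ ∑ u ∈ range V, x u ^ p :=
  le_trans (Finset.sum_le_sum fun s _ => avg_rpow hp hW hx _)
    (sum_avg_le hW (fun u => Real.rpow_nonneg (hx u) _) h)

lemma sum_avg_rpow_le' {p : ℝ} (hp : 1 < p) {W : ℕ} (hW : 1 ≤ W) {x : ℕ → ℝ} (hx : ∀ u, 0 ≤ x u)
    {U c V : ℕ} (h : U + c + W ≤ V) :
    ∑ s ∈ range U, avg W x (s + c) ^ p ≤ (∑ u ∈ range V, x u) ^ p / (W : ℝ) ^ (p - 1) := by
  have hW0 : (0 : ℝ) < W := by exact_mod_cast hW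
  set ψ := ∑ u ∈ range V, x u with hψ
  have hψ0 : 0 ≤ ψ := Finset.sum_nonneg fun u _ => hx u
  have h1 : ∀ s ∈ range U, avg W x (s + c) ^ p ≤ (ψ / W) ^ (p - 1) * avg W x (s + c) := by
    intro s hs
    have hs' := Finset.mem_range.1 hs
    have h0 := avg_nonneg W hx (s + c)
    have : avg W x (s + c) ^ p = avg W x (s + c) ^ (p - 1) * avg W x (s + c) := by
      rw [← Real.rpow_add_one' h0 (by linarith)]; congr 1; ring
    rw [this]
    exact mul_le_mul_of_nonneg_right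
      (Real.rpow_le_rpow h0 (avg_le_total hx (by omega)) (by linarith)) h0
  refine (Finset.sum_le_sum h1).trans ?_
  rw [← Finset.mul_sum]
  refine (mul_le_mul_of_nonneg_left (sum_avg_le hW hx h)
    (Real.rpow_nonneg (div_nonneg hψ0 hW0.le) _)).trans (le_of_eq ?_)
  rw [Real.div_rpow hψ0 hW0.le, ← hψ, div_mul_eq_mul_div, ← Real.rpow_add_one' hψ0 (by linarith)]
  congr 2; ring

lemma sum_avg_sq_le {q : ℝ} (hq : 0 ≤ q) {a : ℝ} (ha : 0 < a) {W : ℕ} (hW : 1 ≤ W) {x : ℕ → ℝ}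
    (hx : ∀ u, 0 ≤ x u) {U c V : ℕ} (h : U + c + W ≤ V) :
    ∑ s ∈ range U, lam a s ^ q * avg W x (s + c) ^ 2 ≤ ∑ u ∈ range V, lam a u ^ q * x u ^ 2 := by
  refine le_trans (Finset.sum_le_sum fun s _ => ?_) (sum_avg_le hW
    (y := fun u => lam a u ^ q * x u ^ 2)
    (fun u => mul_nonneg (Real.rpow_nonneg (lam_pos ha u).le _) (sq_nonneg _)) h)
  have h1 := avg_rpow (p := 2) one_le_two hW hx (s + c)
  simp only [Real.rpow_two] at h1
  refine (mul_le_mul_of_nonneg_left h1 (Real.rpow_nonneg (lam_pos ha s).le _)).trans ?_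
  unfold avg
  rw [← mul_div_assoc, Finset.mul_sum]
  refine div_le_div_of_nonneg_right (Finset.sum_le_sum fun b _ => ?_) (Nat.cast_nonneg _)
  exact mul_le_mul_of_nonneg_right
    (Real.rpow_le_rpow (lam_pos ha s).le (lam_mono ha (by omega)) hq) (sq_nonneg _)

/-- the pointwise `L^∞`–`L²` interpolation for the total variation in the scale -/
lemma psi_bound {p : ℝ} (hp : 2 < p) : ∃ C : ℝ, 1 ≤ C ∧ ∀ a : ℝ, 0 < a → ∀ r : ℝ, 0 < r →
    ∀ (x : ℕ → ℝ) (V : ℕ), (∀ u, 0 ≤ x u) → (∀ u, x u ≤ r * lam a u) →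
    (∑ u ∈ range V, x u) ^ p ≤ C * r ^ (p - 2) * ∑ u ∈ range V, lam a u ^ (p - 2) * x u ^ 2 := by
  obtain ⟨C1, hC1, h1⟩ := geo_lo one_pos
  obtain ⟨C2, hC2, h2⟩ := geo_hi (q := p - 2) (by linarith)
  have hp0 : 0 < p := by linarith
  refine ⟨(C1 + 1 + C2) ^ p, Real.one_le_rpow (by linarith) hp0.le, fun a ha r hr x V hx hxr => ?_⟩
  set Q := ∑ u ∈ range V, lam a u ^ (p - 2) * x u ^ 2 with hQ
  have hterm : ∀ u, 0 ≤ lam a u ^ (p - 2) * x u ^ 2 := fun u =>
    mul_nonneg (Real.rpow_nonneg (lam_pos ha u).le _) (sq_nonneg _)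
  have hQ0 : 0 ≤ Q := Finset.sum_nonneg fun u _ => hterm u
  rcases hQ0.eq_or_lt with h0 | h0
  · have : ∑ u ∈ range V, x u = 0 := by
      refine Finset.sum_eq_zero fun u hu => ?_
      have h3 := (Finset.sum_eq_zero_iff_of_nonneg (fun u _ => hterm u)).1 h0.symm u hu
      rcases mul_eq_zero.1 h3 with h4 | h4
      · exact absurd h4 (Real.rpow_pos_of_pos (lam_pos ha u) _).ne'
      · exact pow_eq_zero_iff two_ne_zero |>.1 h4
    rw [this, Real.zero_rpow hp0.ne', ← h0, mul_zero]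
  · set t := (Q / r ^ 2) ^ (1 / p) with ht
    have ht0 : 0 < t := Real.rpow_pos_of_pos (by positivity) _
    have htp : t ^ p = Q / r ^ 2 := by
      rw [ht, ← Real.rpow_mul (by positivity), one_div_mul_cancel hp0.ne', Real.rpow_one]
    set y := r * t / Q with hy
    have hy0 : 0 < y := by positivity
    have h3 : ∑ u ∈ range V, x u ≤ ∑ u ∈ range V, (r * (if lam a u < t then lam a u ^ (1 : ℝ) else 0)
        + y * (lam a u ^ (p - 2) * x u ^ 2)
        + y⁻¹ * (if t ≤ lam a u then lam a u ^ (-(p - 2)) else 0)) := by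
      refine Finset.sum_le_sum fun u _ => ?_
      have hl := Real.rpow_pos_of_pos (lam_pos ha u) (p - 2)
      by_cases h : lam a u < t
      · rw [if_pos h, if_neg (not_le.2 h), Real.rpow_one]
        have := mul_nonneg hy0.le (hterm u)
        have := hxr u
        linarith
      · rw [if_neg h, if_pos (not_lt.1 h), Real.rpow_neg (lam_pos ha u).le]
        set z := y * lam a u ^ (p - 2) with hz
        have hz0 : 0 < z := by positivity
        have e1 : y * (lam a u ^ (p - 2) * x u ^ 2) = z * x u ^ 2 := by rw [hz]; ring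
        have e2 : y⁻¹ * (lam a u ^ (p - 2))⁻¹ = z⁻¹ := by rw [hz, mul_inv]
        rw [e1, e2, mul_zero, zero_add]
        have e3 : z * z⁻¹ = 1 := mul_inv_cancel₀ hz0.ne'
        have e4 : 0 < z⁻¹ := inv_pos.2 hz0
        have e5 := mul_nonneg hz0.le (sq_nonneg (x u - z⁻¹))
        have e6 := hx u
        nlinarith
    rw [Finset.sum_add_distrib, Finset.sum_add_distrib, ← Finset.mul_sum, ← Finset.mul_sum,
      ← Finset.mul_sum, ← hQ] at h3
    have h4 := mul_le_mul_of_nonneg_left (h1 a ha t ht0.le V) hr.le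
    have h5 := mul_le_mul_of_nonneg_left (h2 a ha t ht0 V) (inv_pos.2 hy0).le
    have h6 : y * Q = r * t := by rw [hy]; field_simp
    have h7 : y⁻¹ * (C2 * t ^ (-(p - 2))) = C2 * (r * t) := by
      have e1 : t ^ (-(p - 2)) = t ^ 2 / t ^ p := by
        rw [← Real.rpow_two, ← Real.rpow_sub ht0]; congr 1; ring
      rw [e1, htp, hy]; field_simp
    rw [Real.rpow_one] at h4
    have h8 : ∑ u ∈ range V, x u ≤ (C1 + 1 + C2) * (r * t) := by linarith
    refine (Real.rpow_le_rpow (Finset.sum_nonneg fun u _ => hx u) h8 hp0.le).trans (le_of_eq ?_)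
    rw [Real.mul_rpow (by linarith) (by positivity), Real.mul_rpow hr.le ht0.le, htp,
      Real.rpow_sub hr, Real.rpow_two]
    field_simp

/-- the pointwise `L¹`–`L²` interpolation -/
lemma interp_pt {p : ℝ} (hp : 1 < p) (hp2 : p < 2) {r l x : ℝ} (hr : 0 < r) (hl : 0 < l)
    (hx : 0 ≤ x) :
    x ^ p ≤ r ^ (1 - p) * (l ^ (p - 1) * x) + r ^ (2 - p) * (l ^ (p - 2) * x ^ 2) := by
  have hA : 0 ≤ r ^ (1 - p) * (l ^ (p - 1) * x) := by positivity
  have hB : 0 ≤ r ^ (2 - p) * (l ^ (p - 2) * x ^ 2) := by positivity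
  rcases hx.eq_or_lt with h0 | h0
  · rw [← h0, Real.zero_rpow (by linarith)]; simp
  rcases le_total x (l / r) with h | h
  · have e1 : x ^ p = x ^ (p - 1) * x := by
      rw [← Real.rpow_add_one h0.ne']; congr 1; ring
    have e2 : x ^ (p - 1) ≤ (l / r) ^ (p - 1) := Real.rpow_le_rpow hx h (by linarith)
    have e3 : (l / r) ^ (p - 1) = r ^ (1 - p) * l ^ (p - 1) := by
      rw [Real.div_rpow hl.le hr.le, show 1 - p = -(p - 1) by ring, Real.rpow_neg hr.le]; ring
    have := mul_le_mul_of_nonneg_right e2 hx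
    rw [e3] at this
    linarith
  · have e1 : x ^ p = x ^ (p - 2) * x ^ 2 := by
      rw [← Real.rpow_two, ← Real.rpow_add h0]; congr 1; ring
    have e2 : x ^ (p - 2) ≤ (l / r) ^ (p - 2) :=
      Real.rpow_le_rpow_of_nonpos (by positivity) h (by linarith)
    have e3 : (l / r) ^ (p - 2) = r ^ (2 - p) * l ^ (p - 2) := by
      rw [Real.div_rpow hl.le hr.le, show 2 - p = -(p - 2) by ring, Real.rpow_neg hr.le]; ring
    have := mul_le_mul_of_nonneg_right e2 (sq_nonneg x)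
    rw [e3] at this
    linarith

end Crest.Agent.DR
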