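import Crest.Agent.DR.Core1

/-! Choice of the parameters: dimension reduction for finite subsets of `ℓ_p^N`. -/

set_option autoImplicit false
set_option linter.unusedSectionVars false
set_option linter.unusedVariables false
open Finset

namespace Crest.Agent.DR

lemma const_le_exp {y0 : ℝ} (hy0 : 0 < y0) (B : ℝ) :
    ∃ c : ℝ, 0 ≤ c ∧ ∀ y, y0 ≤ y → B ≤ Real.exp (c * y) := by
  refine ⟨|B| / y0, by positivity, fun y hy => ?_⟩
  have h1 : |B| ≤ |B| / y0 * y := by
    rw [div_mul_eq_mul_div, le_div_iff₀ hy0]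
    exact mul_le_mul_of_nonneg_left hy (abs_nonneg _)
  have := Real.add_one_le_exp (|B| / y0 * y)
  have := le_abs_self B
  linarith

lemma choose_K {δ η C : ℝ} (hδ : 0 < δ) (hη : 0 < η) (hη1 : η ≤ 1) (hηδ : 126 * η ≤ δ)
    (hC : 1 ≤ C) : ∃ K : ℕ, 1 ≤ K ∧ 0 < K / (1 + η) ^ 3 - C ∧
      (1 + η) ^ 3 * K + C ≤ (1 + δ) * (K / (1 + η) ^ 3 - C) := by
  obtain ⟨K, hK⟩ := exists_nat_gt (16 * C * (2 + δ) / δ)
  rw [div_lt_iff₀ hδ] at hK
  have hK0 : (0 : ℝ) < K := by
    by_contra h
    have : (K : ℝ) * δ ≤ 0 := mul_nonpos_of_nonpos_of_nonneg (not_lt.1 h) hδ.le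
    have : 0 < 16 * C * (2 + δ) := by positivity
    linarith
  set b := (1 + η) ^ 3 with hb
  have h2 : η ^ 2 ≤ η := by nlinarith
  have h3 : η ^ 3 ≤ η := by nlinarith
  have hb1 : 1 ≤ b := one_le_pow₀ (by linarith)
  have hb7 : b ≤ 1 + 7 * η := by rw [hb]; nlinarith
  have hb2 : b ^ 2 ≤ 1 + δ / 2 := by nlinarith
  have hb8 : b ≤ 8 := by linarith
  have key : b * K + C ≤ (1 + δ) * (K / b - C) := by
    have e : (1 + δ) * (K / b - C) = ((1 + δ) * K - (1 + δ) * C * b) / b := by field_simp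
    rw [e, le_div_iff₀ (by linarith)]
    have a1 := mul_le_mul_of_nonneg_right hb2 hK0.le
    have a2 := mul_le_mul_of_nonneg_left hb8 (show 0 ≤ C * (2 + δ) by positivity)
    nlinarith
  refine ⟨K, by exact_mod_cast hK0, ?_, key⟩
  have : 0 < b * K + C := by positivity
  exact pos_of_mul_pos_of_pos_left' (lt_of_lt_of_le this key) (by linarith)
where
  pos_of_mul_pos_of_pos_left' {a b : ℝ} (h : 0 < a * b) (ha : 0 < a) : 0 < b :=
    (mul_pos_iff_of_pos_left ha).1 h

theorem core {p : ℝ} (hp : 1 < p) (hp2 : p ≠ 2) {δ : ℝ} (hδ : 0 < δ) :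
    ∃ C : ℝ, ∀ n : ℕ, 2 ≤ n → ∀ (Ω : Type) [Fintype Ω] (ρ : Fin n × Fin n → ℝ)
      (h : Ω → Fin n → ℝ), (∀ e, 0 ≤ ρ e) → (∀ x y, ρ (x, y) = ρ (y, x)) →
      (∀ x y, x ≠ y → 0 < ρ (x, y)) → (∀ x y, ∑ ω, |h ω x - h ω y| ^ p = ρ (x, y) ^ p) →
      ∃ d : ℕ, (d : ℝ) ≤ Real.exp (C * Real.log n ^ (if p < 2 then 2 - p else 1 - 2 / p)) ∧
        ∃ (G : Fin d → Fin n → ℝ) (c : ℝ), 0 < c ∧ ∀ x y, x ≠ y →
          c * ρ (x, y) ^ p ≤ ∑ l, |G l x - G l y| ^ p ∧
          ∑ l, |G l x - G l y| ^ p ≤ (1 + δ) * c * ρ (x, y) ^ p := by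
  have hp0 : 0 < p := by linarith
  set γ : ℝ := if p < 2 then 2 - p else 1 - 2 / p with hγ
  have hγ0 : 0 < γ := by
    rw [hγ]; split_ifs with h
    · linarith
    · have : 2 < p := lt_of_le_of_ne (not_lt.1 h) (Ne.symm hp2)
      rw [sub_pos, div_lt_one hp0]; exact this
  set η : ℝ := min 1 (δ / 126) with hη'
  have hη : 0 < η := lt_min one_pos (by linarith)
  have hη1 : η ≤ 1 := min_le_left _ _
  have hηδ : 126 * η ≤ δ := by have := min_le_right 1 (δ / 126); linarith
  obtain ⟨C, hC, hcore⟩ := core1 hp hp2 hη hη1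
  obtain ⟨K, hK, hK1, hK2⟩ := choose_K hδ hη hη1 hηδ hC
  have h2p : (1 : ℝ) ≤ 2 ^ p := Real.one_le_rpow one_le_two hp0.le
  set κ : ℝ := η / (5 * 2 ^ p * C) with hκ'
  have hκ : 0 < κ := by positivity
  have hκ1 : κ ≤ 1 := by
    rw [hκ', div_le_one (by positivity)]; nlinarith
  have hlog0 : 0 ≤ Real.log (C / κ) := Real.log_nonneg (by rw [le_div_iff₀ hκ]; linarith)
  set A : ℝ := 162 * C with hA
  set B : ℝ := Real.log (C / κ) + 3 + 2 * p with hB
  obtain ⟨C2, hC2, hk⟩ := rpow_le_cosh (p := 1 / γ) (by positivity)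
  have hy0 : 0 < (1 / 2 : ℝ) ^ γ := Real.rpow_pos_of_pos (by norm_num) _
  obtain ⟨c1, hc1, hc1'⟩ := const_le_exp hy0 (162 * C2 * Real.exp (K + 1))
  obtain ⟨c2, hc2, hc2'⟩ := const_le_exp hy0 (4 * ((2 * B) ^ p) ^ 2 * 3 / κ ^ 2 + 1)
  set c3 : ℝ := c1 + (1 + (K + 1) * A) with hc3
  refine ⟨c2 + (4 * p + 1) * c3, fun n hn Ω _ ρ h hρ hρs hρp hsum => ?_⟩
  have : Nontrivial (Fin n) := Fin.nontrivial_iff_two_le.2 hn
  have hn' : (2 : ℝ) ≤ n := by exact_mod_cast hn
  set k := Real.log n with hk'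
  have hk0 : 1 / 2 ≤ k := by
    have := Real.log_le_log two_pos hn'
    have := Real.log_two_gt_d9
    linarith
  set y := k ^ γ with hy
  have hyy : (1 / 2 : ℝ) ^ γ ≤ y := Real.rpow_le_rpow (by norm_num) hk0 hγ0.le
  have hypos : 0 < y := by linarith
  set W := ⌈A * y⌉₊ with hW'
  have hAy : 0 < A * y := by positivity
  have hW : 1 ≤ W := Nat.ceil_pos.2 hAy
  have hWlo : A * y ≤ W := Nat.le_ceil _
  have hWhi : (W : ℝ) ≤ A * y + 1 := (Nat.ceil_lt_add_one hAy.le).le
  set J : ℝ := 162 * k * 2 ^ ((K + 1) * W) with hJ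
  have h2pow : (1 : ℝ) ≤ 2 ^ ((K + 1) * W) := one_le_pow₀ one_le_two
  have hJk : 162 * k ≤ J := by nlinarith
  have hJ1 : 1 ≤ J := by linarith
  set Λ : ℝ := Real.log (C / κ) + 2 * k + p * Real.log (2 * J) + 1 with hΛ
  have hlJ : 0 ≤ Real.log (2 * J) := Real.log_nonneg (by linarith)
  have hΛ1 : 1 ≤ Λ := by have := mul_nonneg hp0.le hlJ; linarith
  obtain ⟨d, hd0, hd, G, hG⟩ := hcore (Fin n) Ω ρ h (162 * k) κ Λ W K hρ hρs hρp hsum
    (by rw [Fintype.card_fin]; linarith) hW hK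
    (fun hlt => by
      refine le_trans ?_ hWlo
      rw [Real.mul_rpow (by norm_num) (by linarith), hy, hγ, if_pos hlt, hA, ← mul_assoc]
      refine mul_le_mul_of_nonneg_right ?_ (Real.rpow_nonneg (by linarith) _)
      have : (162 : ℝ) ^ (2 - p) ≤ 162 ^ (1 : ℝ) :=
        Real.rpow_le_rpow_of_exponent_le (by norm_num) (by linarith)
      rw [Real.rpow_one] at this
      nlinarith)
    (fun hgt => by
      refine le_trans ?_ (Real.rpow_le_rpow hAy.le hWlo hp0.le)
      rw [Real.mul_rpow (by norm_num) (by linarith), Real.mul_rpow (by positivity) hypos.le, hy,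
        ← Real.rpow_mul (by linarith), hγ, if_neg (by linarith),
        show (1 - 2 / p) * p = p - 2 by field_simp, ← mul_assoc]
      refine mul_le_mul_of_nonneg_right ?_ (Real.rpow_nonneg (by linarith) _)
      rw [hA, Real.mul_rpow (by norm_num) (by linarith), mul_comm]
      refine mul_le_mul (Real.rpow_le_rpow_of_exponent_le (by norm_num) (by linarith)) ?_
        (by linarith) (by positivity)
      have := Real.rpow_le_rpow_of_exponent_le hC hp.le
      rwa [Real.rpow_one] at this)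
    hκ (by rw [hκ']; apply le_of_eq; field_simp) hΛ1
    (by
      rw [Fintype.card_fin, ← hJ]
      have e1 : Real.exp Λ = C / κ * (n : ℝ) ^ 2 * (2 * J) ^ p * Real.exp 1 := by
        rw [hΛ, Real.exp_add, Real.exp_add, Real.exp_add, Real.exp_log (by positivity),
          Real.rpow_def_of_pos (by linarith), mul_comm p, hk', two_mul (Real.log n), Real.exp_add,
          Real.exp_log (by linarith)]
        ring
      have e2 : κ * Real.exp Λ = C * (n : ℝ) ^ 2 * (2 * J) ^ p * Real.exp 1 := by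
        rw [e1]; field_simp
      rw [e2]
      exact le_mul_of_one_le_right (by positivity) (Real.one_le_exp zero_le_one))
  rw [Fintype.card_fin, ← hJ] at hd
  refine ⟨d, hd.trans ?_, G, d * κ * W * (K / (1 + η) ^ 3 - C), ?_, fun x y hxy => ?_⟩
  · have hB0 : 0 < B := by linarith
    have a1 : Λ ≤ B * J := by
      have b1 : Real.log (2 * J) ≤ 2 * J := by
        have := Real.log_le_sub_one_of_pos (show 0 < 2 * J by linarith); linarith
      have b2 := mul_le_mul_of_nonneg_left b1 hp0.le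
      have b3 := mul_le_mul_of_nonneg_left hJ1 hlog0
      rw [hΛ, hB]; nlinarith
    have a2 : Real.log (2 * (n : ℝ) ^ 2) ≤ 3 * J := by
      rw [Real.log_mul (by norm_num) (by positivity), Real.log_pow]
      have := Real.log_two_lt_d9
      push_cast
      linarith
    have a3 : J ≤ Real.exp (c3 * y) := by
      have b1 : k ≤ C2 * Real.exp y := by
        have c := hk y
        rw [abs_of_pos hypos, hy, ← Real.rpow_mul (by linarith), mul_one_div_cancel hγ0.ne',
          Real.rpow_one, ← hy] at c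
        refine c.trans (mul_le_mul_of_nonneg_left ?_ (by linarith))
        rw [Real.cosh_eq]
        have := Real.exp_le_exp.2 (show -y ≤ y by linarith)
        linarith
      have b2 : (2 : ℝ) ^ ((K + 1) * W) ≤ Real.exp ((K + 1) * (A * y + 1)) := by
        have c1 : (2 : ℝ) ≤ Real.exp 1 := by have := Real.add_one_le_exp 1; linarith
        refine (pow_le_pow_left₀ zero_le_two c1 _).trans ?_
        rw [← Real.exp_nat_mul, mul_one, Real.exp_le_exp]
        push_cast
        exact mul_le_mul_of_nonneg_left hWhi (by positivity)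
      have b3 := hc1' y hyy
      calc J ≤ 162 * (C2 * Real.exp y) * Real.exp ((K + 1) * (A * y + 1)) :=
            mul_le_mul (by linarith) b2 (by linarith) (by positivity)
        _ = 162 * C2 * Real.exp (K + 1) * Real.exp ((1 + (K + 1) * A) * y) := by
            have : Real.exp y * Real.exp ((K + 1) * (A * y + 1))
                = Real.exp (K + 1) * Real.exp ((1 + (K + 1) * A) * y) := by
              rw [← Real.exp_add, ← Real.exp_add]; congr 1; ring
            linear_combination 162 * C2 * this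
        _ ≤ Real.exp (c1 * y) * Real.exp ((1 + (K + 1) * A) * y) :=
            mul_le_mul_of_nonneg_right b3 (Real.exp_pos _).le
        _ = Real.exp (c3 * y) := by rw [← Real.exp_add, hc3]; congr 1; ring
    set Z := Real.exp (c3 * y) with hZ
    have hZ1 : 1 ≤ Z := hJ1.trans a3
    have a4 : (2 * J * Λ) ^ p ≤ (2 * B) ^ p * Real.exp (2 * p * (c3 * y)) := by
      have b1 : 2 * J * Λ ≤ 2 * B * Real.exp (2 * (c3 * y)) := by
        rw [two_mul (c3 * y), Real.exp_add, ← hZ]
        have := mul_le_mul_of_nonneg_left a1 (show 0 ≤ 2 * J by linarith)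
        have := mul_le_mul_of_nonneg_left (mul_self_le_mul_self (by linarith) a3)
          (show 0 ≤ 2 * B by linarith)
        linarith
      refine (Real.rpow_le_rpow (by positivity) b1 hp0.le).trans (le_of_eq ?_)
      rw [Real.mul_rpow (by linarith) (Real.exp_pos _).le, ← Real.exp_mul]
      congr 2; ring
    have a5 : ((2 * J * Λ) ^ p) ^ 2 * Real.log (2 * (n : ℝ) ^ 2)
        ≤ ((2 * B) ^ p) ^ 2 * 3 * Real.exp ((4 * p + 1) * c3 * y) := by
      have b1 := pow_le_pow_left₀ (Real.rpow_nonneg (by positivity) _) a4 2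
      have b2 : Real.log (2 * (n : ℝ) ^ 2) ≤ 3 * Z := by linarith
      refine (mul_le_mul b1 b2 (Real.log_nonneg (by nlinarith)) (sq_nonneg _)).trans (le_of_eq ?_)
      rw [show (4 * p + 1) * c3 * y = 2 * p * (c3 * y) + 2 * p * (c3 * y) + c3 * y by ring,
        Real.exp_add, Real.exp_add]
      ring
    have a6 : 1 ≤ Real.exp ((4 * p + 1) * c3 * y) := Real.one_le_exp (by positivity)
    have a7 := mul_le_mul_of_nonneg_right (hc2' y hyy) (Real.exp_pos ((4 * p + 1) * c3 * y)).le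
    rw [← Real.exp_add, ← add_mul] at a7
    refine le_trans ?_ a7
    have a8 := div_le_div_of_nonneg_right (mul_le_mul_of_nonneg_left a5
      (show (0 : ℝ) ≤ 4 by norm_num)) (sq_nonneg κ)
    rw [add_mul, one_mul, mul_assoc 4]
    refine add_le_add (a8.trans (le_of_eq ?_)) a6
    ring
  · have : (0 : ℝ) < d := by exact_mod_cast hd0
    have : (0 : ℝ) < W := by exact_mod_cast hW
    positivity
  · refine ⟨(hG x y hxy).1, (hG x y hxy).2.trans ?_⟩
    refine mul_le_mul_of_nonneg_right ?_ (Real.rpow_nonneg (hρ _) _)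
    have := mul_le_mul_of_nonneg_left hK2 (show 0 ≤ (d : ℝ) * κ * W by positivity)
    linarith

end Crest.Agent.DR
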