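import Crest.Agent.DR.Good
import Crest.Agent.DR.Assemble

/-! The embedding with explicit parameters. -/

set_option autoImplicit false
set_option linter.unusedSectionVars false
set_option linter.unusedVariables false
open Finset

namespace Crest.Agent.DR

lemma exists_pos_lt {ι : Type*} [Fintype ι] (t : ι → ℝ) :
    ∃ m : ℝ, 0 < m ∧ ∀ i, t i = 0 ∨ m < |t i| := by
  classical
  have : ∀ s : Finset ι, ∃ m : ℝ, 0 < m ∧ ∀ i ∈ s, t i = 0 ∨ m < |t i| := by
    intro s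
    induction s using Finset.induction_on with
    | empty => exact ⟨1, one_pos, by simp⟩
    | insert j s hj ih =>
      obtain ⟨m, hm, h⟩ := ih
      by_cases h0 : t j = 0
      · refine ⟨m, hm, fun i hi => ?_⟩
        rcases Finset.mem_insert.1 hi with rfl | hi
        · exact Or.inl h0
        · exact h i hi
      · have := abs_pos.2 h0
        refine ⟨min m (|t j| / 2), lt_min hm (by linarith), fun i hi => ?_⟩
        rcases Finset.mem_insert.1 hi with rfl | hi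
        · exact Or.inr ((min_le_right _ _).trans_lt (by linarith))
        · exact (h i hi).imp id fun h' => (min_le_left _ _).trans_lt h'
  obtain ⟨m, hm, h⟩ := this univ
  exact ⟨m, hm, fun i => h i (mem_univ i)⟩

/-- unified output of the two cases -/
theorem good {p : ℝ} (hp : 1 < p) (hp2 : p ≠ 2) : ∃ C : ℝ, 1 ≤ C ∧
    ∀ (X Ω : Type) [Fintype X] [DecidableEq X] [Nonempty X] [Fintype Ω] (ρ : X × X → ℝ)
      (h : Ω → X → ℝ) (a r : ℝ) (U W K : ℕ), (∀ e, 0 ≤ ρ e) → (∀ x y, ρ (x, y) = ρ (y, x)) →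
      0 < a → (∀ e, ∑ ω, |sl ρ (h ω) e| ^ p ≤ 1) →
      16 * (8 * Real.log (Fintype.card X) + 1) + 1 ≤ r → 1 ≤ W →
      (p < 2 → C * r ^ (2 - p) ≤ W) → (2 < p → C * r ^ (p - 2) ≤ (W : ℝ) ^ p) →
      ∃ φ, Adm ρ φ ∧ (∀ e, row ρ φ e ≤ r) ∧
        (∀ e, ∑ ω, ∑ s ∈ range U, |T ρ φ (fun f => tau W K a s (sl ρ (h ω) f)) e
          - tau W K a s (sl ρ (h ω) e)| ^ p ≤ W) ∧
        (2 < p → ∀ e, ∑ ω, ∑ s ∈ range U, lam a s ^ (p - 2) *
          (T ρ φ (fun f => tau W K a s (sl ρ (h ω) f)) e - tau W K a s (sl ρ (h ω) e)) ^ 2 ≤ C) := by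
  have h2p : (1 : ℝ) ≤ 2 ^ p := Real.one_le_rpow one_le_two (by linarith)
  have key : ∀ (X : Type) [Fintype X] [DecidableEq X] (ρ : X × X → ℝ) (φ : X × X → X → ℝ) (a : ℝ)
      (g : X → ℝ) (e : X × X) (U W K : ℕ), ∑ s ∈ range U, |T ρ φ (fun f => tau W K a s (sl ρ g f)) e
          - tau W K a s (sl ρ g e)| ^ p ≤ 2 ^ p *
          (∑ s ∈ range U, avg W (fun u => |Er ρ φ a g e u|) (s + K * W) ^ p
            + ∑ s ∈ range U, avg W (fun u => |Er ρ φ a g e u|) (s + 0) ^ p) := by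
    intro X _ _ ρ φ a g e U W K
    rw [← Finset.sum_add_distrib, Finset.mul_sum]
    refine Finset.sum_le_sum fun s _ => ?_
    have h1 := band_err ρ φ a g e W K s
    have n1 := avg_nonneg W (x := fun u => |Er ρ φ a g e u|) (fun u => abs_nonneg _) (s + K * W)
    have n2 := avg_nonneg W (x := fun u => |Er ρ φ a g e u|) (fun u => abs_nonneg _) (s + 0)
    have h2 := add_pow_le hp.le (avg W (fun u => |Er ρ φ a g e u|) (s + K * W))
      (avg W (fun u => |Er ρ φ a g e u|) (s + 0))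
    rw [abs_of_nonneg n1, abs_of_nonneg n2, abs_of_nonneg (add_nonneg n1 n2)] at h2
    exact (Real.rpow_le_rpow (abs_nonneg _) h1 (by linarith)).trans h2
  rcases lt_or_gt_of_ne hp2 with hlt | hgt
  · obtain ⟨C, hC, hg⟩ := good_lt hp hlt
    refine ⟨2 ^ p * (2 * C), by nlinarith, ?_⟩
    intro X Ω _ _ _ _ ρ h a r U W K hρ hρs ha hσ hr hW h1 h2
    obtain ⟨φ, hadm, hrow, he⟩ := hg X Ω ρ h a r (U + K * W + W) hρ hρs ha hσ hr
    refine ⟨φ, hadm, hrow, fun e => ?_, fun h => absurd h (by linarith)⟩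
    have b1 : ∀ ω, ∑ s ∈ range U, |T ρ φ (fun f => tau W K a s (sl ρ (h ω) f)) e
          - tau W K a s (sl ρ (h ω) e)| ^ p
          ≤ 2 ^ p * (2 * ∑ u ∈ range (U + K * W + W), |Er ρ φ a (h ω) e u| ^ p) := by
      intro ω
      refine (key X ρ φ a (h ω) e U W K).trans (mul_le_mul_of_nonneg_left ?_ (by linarith))
      have c1 := sum_avg_rpow_le hp.le hW (x := fun u => |Er ρ φ a (h ω) e u|)
        (fun u => abs_nonneg _) (U := U) (c := K * W) (V := U + K * W + W) le_rfl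
      have c2 := sum_avg_rpow_le hp.le hW (x := fun u => |Er ρ φ a (h ω) e u|)
        (fun u => abs_nonneg _) (U := U) (c := 0) (V := U + K * W + W) (by omega)
      linarith
    refine (Finset.sum_le_sum fun ω _ => b1 ω).trans ?_
    rw [← Finset.mul_sum, ← Finset.mul_sum]
    have := mul_le_mul_of_nonneg_left (he e) (show 0 ≤ 2 ^ p * 2 by linarith)
    have := h1 hlt
    linarith
  · obtain ⟨C, hC, hg⟩ := good_gt hgt
    refine ⟨2 ^ p * (4 * C), by nlinarith, ?_⟩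
    intro X Ω _ _ _ _ ρ h a r U W K hρ hρs ha hσ hr hW h1 h2
    have hW0 : (0 : ℝ) < W := by exact_mod_cast hW
    obtain ⟨φ, hadm, hrow, hq, he⟩ := hg X Ω ρ h a r (U + K * W + W) hρ hρs ha hσ hr
    refine ⟨φ, hadm, hrow, fun e => ?_, fun _ e => ?_⟩
    · have hWp : 0 < (W : ℝ) ^ (p - 1) := Real.rpow_pos_of_pos hW0 _
      have b1 : ∀ ω, ∑ s ∈ range U, |T ρ φ (fun f => tau W K a s (sl ρ (h ω) f)) e
          - tau W K a s (sl ρ (h ω) e)| ^ p ≤ 2 ^ p * (2 *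
            ((∑ u ∈ range (U + K * W + W), |Er ρ φ a (h ω) e u|) ^ p / (W : ℝ) ^ (p - 1))) := by
        intro ω
        refine (key X ρ φ a (h ω) e U W K).trans (mul_le_mul_of_nonneg_left ?_ (by linarith))
        have c1 := sum_avg_rpow_le' hp hW (x := fun u => |Er ρ φ a (h ω) e u|)
          (fun u => abs_nonneg _) (U := U) (c := K * W) (V := U + K * W + W) le_rfl
        have c2 := sum_avg_rpow_le' hp hW (x := fun u => |Er ρ φ a (h ω) e u|)
          (fun u => abs_nonneg _) (U := U) (c := 0) (V := U + K * W + W) (by omega)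
        linarith
      refine (Finset.sum_le_sum fun ω _ => b1 ω).trans ?_
      rw [← Finset.mul_sum, ← Finset.mul_sum, ← Finset.sum_div, ← mul_div_assoc, ← mul_div_assoc,
        div_le_iff₀ hWp]
      have c3 : (W : ℝ) * (W : ℝ) ^ (p - 1) = (W : ℝ) ^ p := by
        rw [mul_comm, ← Real.rpow_add_one hW0.ne']; congr 1; ring
      rw [c3]
      have c4 := mul_le_mul_of_nonneg_left (he e) (show 0 ≤ 2 ^ p * 2 by linarith)
      have c5 := h2 hgt
      have hn : (1 : ℝ) ≤ Fintype.card X := by exact_mod_cast Fintype.card_pos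
      have hr0 : 0 < r := by have := Real.log_nonneg hn; linarith
      have c6 : 0 ≤ 2 ^ p * (2 * C) * r ^ (p - 2) := by positivity
      linarith
    · have b1 : ∀ ω, ∑ s ∈ range U, lam a s ^ (p - 2) *
          (T ρ φ (fun f => tau W K a s (sl ρ (h ω) f)) e - tau W K a s (sl ρ (h ω) e)) ^ 2
          ≤ 4 * ∑ u ∈ range (U + K * W + W), lam a u ^ (p - 2) * |Er ρ φ a (h ω) e u| ^ 2 := by
        intro ω
        have c1 := sum_avg_sq_le (q := p - 2) (by linarith) ha hW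
          (x := fun u => |Er ρ φ a (h ω) e u|)
          (fun u => abs_nonneg _) (U := U) (c := K * W) (V := U + K * W + W) le_rfl
        have c2 := sum_avg_sq_le (q := p - 2) (by linarith) ha hW
          (x := fun u => |Er ρ φ a (h ω) e u|)
          (fun u => abs_nonneg _) (U := U) (c := 0) (V := U + K * W + W) (by omega)
        have c3 : ∑ s ∈ range U, lam a s ^ (p - 2) *
            (T ρ φ (fun f => tau W K a s (sl ρ (h ω) f)) e - tau W K a s (sl ρ (h ω) e)) ^ 2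
            ≤ 2 * ∑ s ∈ range U, lam a s ^ (p - 2) *
                avg W (fun u => |Er ρ φ a (h ω) e u|) (s + K * W) ^ 2
              + 2 * ∑ s ∈ range U, lam a s ^ (p - 2) *
                avg W (fun u => |Er ρ φ a (h ω) e u|) (s + 0) ^ 2 := by
          rw [Finset.mul_sum, Finset.mul_sum, ← Finset.sum_add_distrib]
          refine Finset.sum_le_sum fun s _ => ?_
          have d1 := band_err ρ φ a (h ω) e W K s
          have d2 := pow_le_pow_left₀ (abs_nonneg _) d1 2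
          rw [sq_abs] at d2
          have d3 := Real.rpow_nonneg (lam_pos ha s).le (p - 2)
          have d4 := mul_le_mul_of_nonneg_left d2 d3
          nlinarith [mul_nonneg d3 (sq_nonneg (avg W (fun u => |Er ρ φ a (h ω) e u|) (s + K * W)
            - avg W (fun u => |Er ρ φ a (h ω) e u|) (s + 0)))]
        linarith
      refine (Finset.sum_le_sum fun ω _ => b1 ω).trans ?_
      rw [← Finset.mul_sum]
      have := hq e
      nlinarith

lemma fin_lo {η C1 C2 N W K : ℝ} (hη : 0 < η) (hC1 : 1 ≤ C1) (hC : 1 ≤ C2 * N) (hW : 1 ≤ W) :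
    W * (K / (1 + η) ^ 3 - (9 + 4 * C1 + C2 * N))
      ≤ (((K - 1) * W - C1 * W) / (1 + η) / (1 + η) - C2 * (N * W)) / (1 + η) - 2 := by
  have hη' : 0 < 1 + η := by linarith
  have i1 : 1 / (1 + η) ≤ 1 := by rw [div_le_one hη']; linarith
  have i0 : 0 < 1 / (1 + η) := by positivity
  set t := 1 / (1 + η) with ht
  have e1 : (((K - 1) * W - C1 * W) / (1 + η) / (1 + η) - C2 * (N * W)) / (1 + η) - 2
      = W * (K * t ^ 3) - (1 + C1) * W * t ^ 3 - C2 * N * W * t - 2 := by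
    rw [ht]; field_simp; ring
  have e2 : K / (1 + η) ^ 3 = K * t ^ 3 := by rw [ht]; field_simp
  rw [e1, e2]
  have i2 : t ^ 3 ≤ 1 := pow_le_one₀ i0.le i1
  have i3 := mul_le_mul_of_nonneg_left i2 (show 0 ≤ (1 + C1) * W by positivity)
  have i4 := mul_le_mul_of_nonneg_left i1 (show 0 ≤ C2 * N * W by positivity)
  have i5 : 0 ≤ C1 * W := by positivity
  linarith

lemma fin_hi {η C1 C2 N W K : ℝ} (hη : 0 < η) (hη1 : η ≤ 1) (hC1 : 1 ≤ C1) (hC : 1 ≤ C2 * N)
    (hW : 1 ≤ W) :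
    (1 + η) * ((1 + η) * ((1 + η) * ((K + 1) * W) + C1 * W)) + C2 * (N * W) + 1
      ≤ W * ((1 + η) ^ 3 * K + (9 + 4 * C1 + C2 * N)) := by
  have i1 : (1 + η) ^ 2 ≤ 4 := by nlinarith
  have i2 : (1 + η) ^ 3 ≤ 8 := by nlinarith
  have i3 := mul_le_mul_of_nonneg_left i1 (show 0 ≤ C1 * W by positivity)
  have i4 := mul_le_mul_of_nonneg_left i2 (show 0 ≤ (W : ℝ) by positivity)
  linarith

theorem core1 {p : ℝ} (hp : 1 < p) (hp2 : p ≠ 2) {η : ℝ} (hη : 0 < η) (hη1 : η ≤ 1) :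
    ∃ C : ℝ, 1 ≤ C ∧ ∀ (X Ω : Type) [Fintype X] [DecidableEq X] [Nontrivial X] [Fintype Ω]
      (ρ : X × X → ℝ) (h : Ω → X → ℝ) (r κ Λ : ℝ) (W K : ℕ),
      (∀ e, 0 ≤ ρ e) → (∀ x y, ρ (x, y) = ρ (y, x)) → (∀ x y, x ≠ y → 0 < ρ (x, y)) →
      (∀ x y, ∑ ω, |h ω x - h ω y| ^ p = ρ (x, y) ^ p) →
      16 * (8 * Real.log (Fintype.card X) + 1) + 1 ≤ r → 1 ≤ W → 1 ≤ K →
      (p < 2 → C * r ^ (2 - p) ≤ W) → (2 < p → C * r ^ (p - 2) ≤ (W : ℝ) ^ p) →
      0 < κ → 2 ^ p * (κ * C) ≤ η / 5 → 1 ≤ Λ →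
      C * (Fintype.card X : ℝ) ^ 2 * (2 * (r * 2 ^ ((K + 1) * W))) ^ p ≤ κ * Real.exp Λ →
      ∃ d : ℕ, 0 < d ∧ (d : ℝ) ≤ 4 * ((2 * (r * 2 ^ ((K + 1) * W)) * Λ) ^ p) ^ 2 *
          Real.log (2 * (Fintype.card X : ℝ) ^ 2) / κ ^ 2 + 1 ∧
        ∃ G : Fin d → X → ℝ, ∀ x y, x ≠ y →
          d * κ * W * (K / (1 + η) ^ 3 - C) * ρ (x, y) ^ p ≤ ∑ l, |G l x - G l y| ^ p ∧
          ∑ l, |G l x - G l y| ^ p ≤ d * κ * W * ((1 + η) ^ 3 * K + C) * ρ (x, y) ^ p := by
  classical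
  have hp0 : 0 < p := by linarith
  obtain ⟨C0, hC0, hgood⟩ := good hp hp2
  obtain ⟨C1, hC1, hsplit⟩ := split_ineq hp.le hη
  obtain ⟨C2, hC2, hass⟩ := assemble hp.le hη hη1
  obtain ⟨C3, hC3, hgeo⟩ := geo_lo hp0
  set N := C3 + C0 with hN
  have hC2N : 1 ≤ C2 * N := by nlinarith
  have hC2N' : N ≤ C2 * N := by nlinarith
  have hC2N'' : C2 ≤ C2 * N := by nlinarith
  refine ⟨9 + 4 * C1 + C2 * N, by linarith, ?_⟩
  intro X Ω _ _ _ _ ρ h r κ Λ W K hρ hρs hρp hsum hr hW hK hW1 hW2 hκ hκC hΛ hΛ2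
  have hn : (1 : ℝ) ≤ Fintype.card X := by exact_mod_cast Fintype.card_pos
  have hr1 : 1 ≤ r := by have := Real.log_nonneg hn; linarith
  have hW0 : (1 : ℝ) ≤ W := by exact_mod_cast hW
  have hK0 : (1 : ℝ) ≤ K := by exact_mod_cast hK
  have hσ1 : ∀ x y, x ≠ y → ∑ ω, |sl ρ (h ω) (x, y)| ^ p = 1 := by
    intro x y hxy
    have h0 := hρp x y hxy
    simp only [sl, abs_div, abs_of_pos h0, Real.div_rpow (abs_nonneg _) h0.le]
    rw [← Finset.sum_div, hsum, div_self (Real.rpow_pos_of_pos h0 _).ne']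
  have hσ : ∀ e, ∑ ω, |sl ρ (h ω) e| ^ p ≤ 1 := by
    rintro ⟨x, y⟩
    by_cases hxy : x = y
    · subst hxy; simp [sl, Real.zero_rpow hp0.ne']
    · exact (hσ1 x y hxy).le
  obtain ⟨m, hm, hmσ⟩ := exists_pos_lt (fun θ : Ω × (X × X) => sl ρ (h θ.1) θ.2)
  set a := m / 2 ^ (K * W) with ha'
  have ha : 0 < a := by positivity
  have hlam : lam a (K * W) = m := by unfold lam; rw [ha']; field_simp
  obtain ⟨U, hU⟩ : ∃ U : ℕ, ∀ ω e, |sl ρ (h ω) e| ≤ lam a U := by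
    choose l hl using fun θ : Ω × (X × X) => exists_lev ha (sl ρ (h θ.1) θ.2)
    exact ⟨univ.sup l, fun ω e => (hl (ω, e) _).2 (Finset.le_sup (mem_univ _))⟩
  obtain ⟨φ, hadm, hrow, herr, herr2⟩ := hgood X Ω ρ h a r U W K hρ hρs ha hσ hr hW
    (fun h => le_trans (mul_le_mul_of_nonneg_right (by linarith)
      (Real.rpow_nonneg (by linarith) _)) (hW1 h))
    (fun h => le_trans (mul_le_mul_of_nonneg_right (by linarith)
      (Real.rpow_nonneg (by linarith) _)) (hW2 h))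
  set J := r * 2 ^ ((K + 1) * W) with hJ
  have h2pow : (1 : ℝ) ≤ 2 ^ ((K + 1) * W) := one_le_pow₀ one_le_two
  have hJ1 : 1 ≤ J := by nlinarith
  set τ : Ω × Fin U → X × X → ℝ := fun θ f => tau W K a θ.2 (sl ρ (h θ.1) f) with hτ
  set ν : Ω × Fin U → ℝ := fun θ => lam a θ.2 ^ p with hν
  set ζ : X × X → Ω × Fin U → ℝ := fun e θ => τ θ e / lam a θ.2 with hζ
  set ξ : X × X → Ω × Fin U → ℝ := fun e θ => T ρ φ (τ θ) e / lam a θ.2 with hξ
  set γ : X × X → Ω × Fin U → ℝ := fun e θ =>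
    if p < 2 ∨ |ξ e θ - ζ e θ| ≤ 1 then ξ e θ - ζ e θ else 0 with hγ
  have hν0 : ∀ θ, 0 ≤ ν θ := fun θ => Real.rpow_nonneg (lam_pos ha _).le _
  have hscale : ∀ (θ : Ω × Fin U) (t : ℝ), ν θ * |t / lam a θ.2| ^ p = |t| ^ p := by
    intro θ t
    have h0 := lam_pos ha θ.2
    simp only [hν]
    rw [abs_div, abs_of_pos h0, Real.div_rpow (abs_nonneg _) h0.le,
      mul_div_cancel₀ _ (Real.rpow_pos_of_pos h0 _).ne']
  have hprod : ∀ F : Ω → ℕ → ℝ, ∑ θ : Ω × Fin U, F θ.1 θ.2 = ∑ ω, ∑ s ∈ range U, F ω s := by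
    intro F
    rw [Fintype.sum_prod_type]
    exact Finset.sum_congr rfl fun ω _ => Fin.sum_univ_eq_sum_range (F ω) U
  have hE : ∀ e, ∑ θ, ν θ * |ξ e θ - ζ e θ| ^ p ≤ W := by
    intro e
    simp only [hξ, hζ, ← sub_div, hscale]
    exact (hprod (fun ω s => |T ρ φ (fun f => tau W K a s (sl ρ (h ω) f)) e
      - tau W K a s (sl ρ (h ω) e)| ^ p)).le.trans (herr e)
  have hE2 : 2 < p → ∀ e, ∑ θ, ν θ * (ξ e θ - ζ e θ) ^ 2 ≤ C0 := by
    intro h2 e
    refine le_trans (le_of_eq ?_) ((hprod (fun ω s => lam a s ^ (p - 2) *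
      (T ρ φ (fun f => tau W K a s (sl ρ (h ω) f)) e
      - tau W K a s (sl ρ (h ω) e)) ^ 2)).le.trans (herr2 h2 e))
    refine Finset.sum_congr rfl fun θ _ => ?_
    have h0 := lam_pos ha θ.2
    simp only [hξ, hζ, hν, hτ, ← sub_div]
    rw [Real.rpow_sub h0, Real.rpow_two]
    field_simp
  have hZ : ∀ x y, x ≠ y → ((K : ℝ) - 1) * W ≤ ∑ θ, ν θ * |ζ (x, y) θ| ^ p ∧
      ∑ θ, ν θ * |ζ (x, y) θ| ^ p ≤ ((K : ℝ) + 1) * W := by
    intro x y hxy
    simp only [hζ, hscale]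
    rw [show ∑ θ, |τ θ (x, y)| ^ p = ∑ ω, ∑ s ∈ range U, |tau W K a s (sl ρ (h ω) (x, y))| ^ p from
      hprod (fun ω s => |tau W K a s (sl ρ (h ω) (x, y))| ^ p)]
    have hmain := fun ω => tau_main hp0 hW hK ha (U := U) (t := sl ρ (h ω) (x, y))
      (by rw [hlam]; exact hmσ (ω, (x, y))) (hU ω (x, y))
    constructor
    · refine le_trans (le_of_eq ?_) (Finset.sum_le_sum fun ω _ => (hmain ω).1)
      rw [← Finset.mul_sum, hσ1 x y hxy, mul_one]
    · refine (Finset.sum_le_sum fun ω _ => (hmain ω).2).trans (le_of_eq ?_)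
      rw [← Finset.mul_sum, hσ1 x y hxy, mul_one]
  have hrate : ∀ e, ∑ θ, ν θ * (if ζ e θ = 0 then 0 else 1) ≤ C3 := by
    intro e
    have b1 : ∑ θ, ν θ * (if ζ e θ = 0 then 0 else 1) ≤ ∑ θ : Ω × Fin U,
        (if lam a θ.2 < |sl ρ (h θ.1) e| then lam a θ.2 ^ p else 0) := by
      refine Finset.sum_le_sum fun θ _ => ?_
      by_cases h0 : ζ e θ = 0
      · rw [if_pos h0, mul_zero]; split_ifs
        · exact hν0 θ
        · exact le_rfl
      · have : τ θ e ≠ 0 := by intro h1; apply h0; simp only [hζ, h1, zero_div]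
        rw [if_neg h0, if_pos (tau_supp ha this).1, mul_one]
    refine b1.trans ((hprod (fun ω s =>
      if lam a s < |sl ρ (h ω) e| then lam a s ^ p else 0)).le.trans ?_)
    refine (Finset.sum_le_sum fun ω _ => hgeo a ha _ (abs_nonneg _) U).trans ?_
    rw [← Finset.mul_sum]
    exact mul_le_of_le_one_right (by linarith) (hσ e)
  have hζb : ∀ e θ, |ζ e θ| ≤ 2 ^ ((K + 1) * W) := by
    intro e θ
    have h0 := lam_pos ha θ.2
    simp only [hζ]
    rw [abs_div, abs_of_pos h0, div_le_iff₀ h0]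
    by_cases h1 : τ θ e = 0
    · rw [h1, abs_zero]; positivity
    · rw [mul_comm]; exact (abs_tau_le hW ha _ _).trans (tau_supp ha h1).2
  have hξT : ∀ e θ, ξ e θ = T ρ φ (fun f => ζ f θ) e := by
    intro e θ
    simp only [hξ, hζ, T]
    rw [Finset.sum_div]
    exact Finset.sum_congr rfl fun f _ => by ring
  have hrow0 : ∀ e, 0 ≤ row ρ φ e := fun e => Finset.sum_nonneg fun f _ => abs_nonneg _
  have hξJ : ∀ e θ, |ξ e θ| ≤ J := by
    intro e θ
    rw [hξT]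
    exact (abs_T_le' ρ φ _ e (fun f => hζb f θ)).trans
      (mul_le_mul_of_nonneg_right (hrow e) (by linarith))
  have hξ2 : ∀ e, ∑ θ, ν θ * ξ e θ ^ 2 ≤ N * J ^ 2 := by
    intro e
    have b0 : ∀ f, ∑ θ, ν θ * ζ f θ ^ 2 ≤ C3 * (2 ^ ((K + 1) * W)) ^ 2 := by
      intro f
      refine le_trans ?_ (mul_le_mul_of_nonneg_right (hrate f) (sq_nonneg _))
      rw [Finset.sum_mul]
      refine Finset.sum_le_sum fun θ _ => ?_
      rw [mul_assoc]
      refine mul_le_mul_of_nonneg_left ?_ (hν0 θ)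
      split_ifs with h0
      · rw [h0]; simp
      · rw [one_mul, ← sq_abs]; exact pow_le_pow_left₀ (abs_nonneg _) (hζb f θ) 2
    have b1 : ∑ θ, ν θ * ξ e θ ^ 2
        ≤ row ρ φ e * ∑ f, |sl ρ (φ f) e| * ∑ θ, ν θ * ζ f θ ^ 2 := by
      simp_rw [Finset.mul_sum]
      rw [Finset.sum_comm]
      refine Finset.sum_le_sum fun θ _ => ?_
      rw [hξT]
      refine (mul_le_mul_of_nonneg_left (T_sq_le ρ φ _ e) (hν0 θ)).trans (le_of_eq ?_)
      rw [Finset.mul_sum, Finset.mul_sum]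
      exact Finset.sum_congr rfl fun f _ => by ring
    have b2 : ∑ f, |sl ρ (φ f) e| * ∑ θ, ν θ * ζ f θ ^ 2
        ≤ row ρ φ e * (C3 * (2 ^ ((K + 1) * W)) ^ 2) := by
      unfold row
      rw [Finset.sum_mul]
      exact Finset.sum_le_sum fun f _ => mul_le_mul_of_nonneg_left (b0 f) (abs_nonneg _)
    have b3 := mul_le_mul_of_nonneg_left b2 (hrow0 e)
    have b4 : row ρ φ e * row ρ φ e ≤ r * r := mul_self_le_mul_self (hrow0 e) (hrow e)
    have b5 := mul_le_mul_of_nonneg_right b4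
      (show 0 ≤ C3 * (2 ^ ((K + 1) * W)) ^ 2 by positivity)
    have b6 : 0 ≤ C0 * J ^ 2 := by positivity
    rw [hN, hJ] at *
    nlinarith
  have hpow_mono : ∀ {s t : ℝ}, |s| ≤ |t| → |s| ^ p ≤ |t| ^ p := fun h =>
    Real.rpow_le_rpow (abs_nonneg _) h hp0.le
  have hγle : ∀ e θ, |γ e θ| ≤ |ξ e θ - ζ e θ| := by
    intro e θ; simp only [hγ]; split_ifs <;> simp
  have hγle' : ∀ e θ, |ξ e θ - ζ e θ - γ e θ| ≤ |ξ e θ - ζ e θ| := by
    intro e θ; simp only [hγ]; split_ifs <;> simp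
  have hE' : ∀ e, ∑ θ, ν θ * |ξ e θ - ζ e θ - γ e θ| ^ p ≤ W := fun e =>
    le_trans (Finset.sum_le_sum fun θ _ =>
      mul_le_mul_of_nonneg_left (hpow_mono (hγle' e θ)) (hν0 θ)) (hE e)
  have : Nonempty {e : X × X // e.1 ≠ e.2} := by
    obtain ⟨x, y, hxy⟩ := exists_pair_ne X
    exact ⟨⟨(x, y), hxy⟩⟩
  have hcard : (Fintype.card {e : X × X // e.1 ≠ e.2} : ℝ) ≤ (Fintype.card X : ℝ) ^ 2 := by
    have := Fintype.card_subtype_le (fun e : X × X => e.1 ≠ e.2)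
    rw [Fintype.card_prod] at this
    rw [sq]; exact_mod_cast this
  have h2p : (0 : ℝ) < 2 ^ p := Real.rpow_pos_of_pos two_pos _
  obtain ⟨d, hd0, hd, s, hs⟩ := hass (Ω × Fin U) {e : X × X // e.1 ≠ e.2} ν (fun i => ξ i.1)
    (fun i θ => ξ i.1 θ - γ i.1 θ) (fun i => γ i.1) κ N J
    ((((K : ℝ) - 1) * W - C1 * W) / (1 + η)) ((1 + η) * (((K : ℝ) + 1) * W) + C1 * W) (N * W) Λ
    hν0 (fun i θ => by ring) hκ (by linarith) hJ1 hΛ
    (le_trans (mul_le_mul_of_nonneg_left (mul_le_mul_of_nonneg_left (by linarith) hκ.le) h2p.le)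
      hκC)
    (fun i => by
      rcases lt_or_gt_of_ne hp2 with hlt | hgt
      · have : ∀ θ, ξ i.1 θ - γ i.1 θ = ζ i.1 θ := by
          intro θ; simp only [hγ, hlt, true_or, if_true]; ring
        simp only [this]
        linarith [hrate i.1]
      · have b1 : ∑ θ, ν θ * (if ξ i.1 θ - γ i.1 θ = 0 then 0 else 1)
            ≤ ∑ θ, ν θ * (if ζ i.1 θ = 0 then 0 else 1) + ∑ θ, ν θ * (ξ i.1 θ - ζ i.1 θ) ^ 2 := by
          rw [← Finset.sum_add_distrib]
          refine Finset.sum_le_sum fun θ _ => ?_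
          rw [← mul_add]
          refine mul_le_mul_of_nonneg_left ?_ (hν0 θ)
          have c0 := sq_nonneg (ξ i.1 θ - ζ i.1 θ)
          by_cases c1 : |ξ i.1 θ - ζ i.1 θ| ≤ 1
          · have : ξ i.1 θ - γ i.1 θ = ζ i.1 θ := by
              simp only [hγ]; rw [if_pos (Or.inr c1)]; ring
            rw [this]; linarith
          · have : 1 ≤ (ξ i.1 θ - ζ i.1 θ) ^ 2 := by
              rw [← sq_abs]; nlinarith [not_le.1 c1]
            split_ifs <;> linarith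
        linarith [hrate i.1, hE2 hgt i.1])
    (fun i θ => hξJ i.1 θ) (fun i => hξ2 i.1)
    (fun i => by
      rw [div_le_iff₀ (by linarith)]
      have b1 : ∑ θ, ν θ * |ζ i.1 θ| ^ p ≤ (1 + η) * ∑ θ, ν θ * |ξ i.1 θ - γ i.1 θ| ^ p
          + C1 * ∑ θ, ν θ * |ξ i.1 θ - ζ i.1 θ - γ i.1 θ| ^ p := by
        rw [Finset.mul_sum, Finset.mul_sum, ← Finset.sum_add_distrib]
        refine Finset.sum_le_sum fun θ _ => ?_
        have c1 := hsplit (ξ i.1 θ - γ i.1 θ) (-(ξ i.1 θ - ζ i.1 θ - γ i.1 θ))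
        rw [abs_neg, show ξ i.1 θ - γ i.1 θ + -(ξ i.1 θ - ζ i.1 θ - γ i.1 θ) = ζ i.1 θ by ring] at c1
        have := mul_le_mul_of_nonneg_left c1 (hν0 θ)
        linarith
      have b2 := (hZ i.1.1 i.1.2 i.2).1
      have b3 := mul_le_mul_of_nonneg_left (hE' i.1) (show 0 ≤ C1 by linarith)
      linarith)
    (fun i => by
      have b1 : ∑ θ, ν θ * |ξ i.1 θ - γ i.1 θ| ^ p ≤ (1 + η) * ∑ θ, ν θ * |ζ i.1 θ| ^ p
          + C1 * ∑ θ, ν θ * |ξ i.1 θ - ζ i.1 θ - γ i.1 θ| ^ p := by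
        rw [Finset.mul_sum, Finset.mul_sum, ← Finset.sum_add_distrib]
        refine Finset.sum_le_sum fun θ _ => ?_
        have c1 := hsplit (ζ i.1 θ) (ξ i.1 θ - ζ i.1 θ - γ i.1 θ)
        rw [show ζ i.1 θ + (ξ i.1 θ - ζ i.1 θ - γ i.1 θ) = ξ i.1 θ - γ i.1 θ by ring] at c1
        have := mul_le_mul_of_nonneg_left c1 (hν0 θ)
        linarith
      have b2 := mul_le_mul_of_nonneg_left (hZ i.1.1 i.1.2 i.2).2 (show 0 ≤ 1 + η by linarith)
      have b3 := mul_le_mul_of_nonneg_left (hE' i.1) (show 0 ≤ C1 by linarith)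
      linarith)
    (by
      have hNW : N ≤ N * W := by nlinarith
      have hNW' : (W : ℝ) ≤ N * W := by nlinarith
      rcases lt_or_gt_of_ne hp2 with hlt | hgt
      · refine Or.inl ⟨hlt.le, fun i => ?_⟩
        exact le_trans (Finset.sum_le_sum fun θ _ =>
          mul_le_mul_of_nonneg_left (hpow_mono (hγle i.1 θ)) (hν0 θ)) ((hE i.1).trans hNW')
      · refine Or.inr ⟨hgt.le, fun i θ => ?_, fun i => ?_, hNW⟩
        · simp only [hγ]
          split_ifs with c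
          · rcases c with c | c
            · linarith
            · exact c
          · simp
        · have : ∑ θ, ν θ * γ i.1 θ ^ 2 ≤ ∑ θ, ν θ * (ξ i.1 θ - ζ i.1 θ) ^ 2 :=
            Finset.sum_le_sum fun θ _ =>
              mul_le_mul_of_nonneg_left (sq_le_sq.2 (hγle i.1 θ)) (hν0 θ)
          linarith [hE2 hgt i.1])
    (by
      refine le_trans (mul_le_mul_of_nonneg_right ?_ (Real.rpow_nonneg (by linarith) _)) hΛ2
      exact mul_le_mul (by linarith) hcard (Nat.cast_nonneg _) (by linarith))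
  refine ⟨d, hd0, hd.trans ?_, fun l x => ∑ θ, s l θ * ((∑ f, τ θ f * φ f x) / lam a θ.2),
    fun x y hxy => ?_⟩
  · have hI : (1 : ℝ) ≤ Fintype.card {e : X × X // e.1 ≠ e.2} := by
      exact_mod_cast Fintype.card_pos
    refine add_le_add (div_le_div_of_nonneg_right (mul_le_mul_of_nonneg_left
      (Real.log_le_log (by linarith) (by linarith)) (by positivity)) (sq_nonneg _)) le_rfl
  · have h0 := hρp x y hxy
    have hρpow := Real.rpow_pos_of_pos h0 p
    have hG : ∀ l, |∑ θ, s l θ * ((∑ f, τ θ f * φ f x) / lam a θ.2)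
        - ∑ θ, s l θ * ((∑ f, τ θ f * φ f y) / lam a θ.2)| ^ p
        = |lin (ξ (x, y)) (s l)| ^ p * ρ (x, y) ^ p := by
      intro l
      rw [← Real.mul_rpow (abs_nonneg _) h0.le]
      congr 1
      rw [← abs_of_pos h0, ← abs_mul]
      congr 1
      unfold lin
      rw [← Finset.sum_sub_distrib, Finset.sum_mul]
      refine Finset.sum_congr rfl fun θ _ => ?_
      simp only [hξ, T_eq, sl]
      field_simp
    simp only [hG]
    rw [← Finset.sum_mul]
    obtain ⟨hs1, hs2⟩ := hs ⟨(x, y), hxy⟩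
    have hdκ : 0 ≤ (d : ℝ) * κ := by positivity
    have hη' : 0 < 1 + η := by linarith
    constructor
    · refine mul_le_mul_of_nonneg_right (le_trans ?_ hs1) hρpow.le
      rw [mul_assoc (d * κ)]
      refine mul_le_mul_of_nonneg_left ?_ hdκ
      exact fin_lo hη hC1 hC2N hW0
    · refine mul_le_mul_of_nonneg_right (hs2.trans ?_) hρpow.le
      rw [mul_assoc (d * κ)]
      refine mul_le_mul_of_nonneg_left ?_ hdκ
      exact fin_hi hη hη1 hC1 hC2N hW0

end Crest.Agent.DR
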