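import Crest.Agent.DR.Oper
import Crest.Agent.DR.Band

/-! Error bounds for the projected dyadic truncations. -/

set_option autoImplicit false
set_option linter.unusedSectionVars false
set_option linter.unusedVariables false
open Finset

namespace Crest.Agent.DR

section
variable {X : Type*} [Fintype X] [DecidableEq X]

/-- truncation error at level `u` -/
noncomputable def Er (ρ : X × X → ℝ) (φ : X × X → X → ℝ) (a : ℝ) (g : X → ℝ) (e : X × X) (u : ℕ) :
    ℝ := lo a u (sl ρ g e) - T ρ φ (fun f => lo a u (sl ρ g f)) e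

lemma Er_eq {ρ : X × X → ℝ} {φ : X × X → X → ℝ} (hφ : Adm ρ φ) (a : ℝ) (g : X → ℝ) (e : X × X)
    (u : ℕ) : Er ρ φ a g e u = -((sl ρ g e - lo a u (sl ρ g e))
      - T ρ φ (fun f => sl ρ g f - lo a u (sl ρ g f)) e) := by
  have h := hφ g e
  have h2 : T ρ φ (fun f => sl ρ g f - lo a u (sl ρ g f)) e
      = T ρ φ (sl ρ g) e - T ρ φ (fun f => lo a u (sl ρ g f)) e := by
    unfold T
    rw [← Finset.sum_sub_distrib]
    exact Finset.sum_congr rfl fun f _ => by ring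
  rw [h2, h]; unfold Er; ring

lemma abs_T_le (ρ : X × X → ℝ) (φ : X × X → X → ℝ) (τ : X × X → ℝ) (e : X × X) :
    |T ρ φ τ e| ≤ ∑ f, |τ f| * |sl ρ (φ f) e| := by
  unfold T
  refine (Finset.abs_sum_le_sum_abs _ _).trans (le_of_eq ?_)
  exact Finset.sum_congr rfl fun f _ => abs_mul _ _

lemma abs_T_le' (ρ : X × X → ℝ) (φ : X × X → X → ℝ) (τ : X × X → ℝ) (e : X × X) {b : ℝ}
    (hb : ∀ f, |τ f| ≤ b) : |T ρ φ τ e| ≤ row ρ φ e * b := by
  refine (abs_T_le ρ φ τ e).trans ?_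
  unfold row
  rw [Finset.sum_mul]
  exact Finset.sum_le_sum fun f _ => by
    rw [mul_comm]; exact mul_le_mul_of_nonneg_left (hb f) (abs_nonneg _)

lemma T_sq_le (ρ : X × X → ℝ) (φ : X × X → X → ℝ) (τ : X × X → ℝ) (e : X × X) :
    T ρ φ τ e ^ 2 ≤ row ρ φ e * ∑ f, |sl ρ (φ f) e| * τ f ^ 2 := by
  unfold T row
  exact Finset.sum_sq_le_sum_mul_sum_of_sq_le_mul _ (fun f _ => abs_nonneg _)
    (fun f _ => mul_nonneg (abs_nonneg _) (sq_nonneg _)) (fun f _ => le_of_eq (by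
      rw [← mul_assoc, abs_mul_abs_self]; ring))

end

lemma hi_sum {p q : ℝ} (j : ℕ) (hq : 0 < q) (hpq : q + j = p) : ∃ C : ℝ, 1 ≤ C ∧ ∀ a : ℝ, 0 < a →
    ∀ (t : ℝ) (V : ℕ), ∑ u ∈ range V, lam a u ^ q * (if lam a u < |t| then |t| ^ j else 0)
      ≤ C * |t| ^ p := by
  obtain ⟨C, hC, h⟩ := geo_lo hq
  refine ⟨C, hC, fun a ha t V => ?_⟩
  have h1 := mul_le_mul_of_nonneg_right (h a ha |t| (abs_nonneg t) V)
    (pow_nonneg (abs_nonneg t) j)
  rw [Finset.sum_mul, mul_assoc, ← Real.rpow_add_natCast' (abs_nonneg t) (by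
    have : (0 : ℝ) ≤ j := Nat.cast_nonneg j
    linarith), hpq] at h1
  refine le_trans (le_of_eq (Finset.sum_congr rfl fun u _ => ?_)) h1
  split_ifs <;> simp

lemma abs_hi (a : ℝ) (u : ℕ) (t : ℝ) : |t - lo a u t| = if lam a u < |t| then |t| else 0 := by
  unfold lo
  by_cases h : |t| ≤ lam a u
  · rw [if_pos h, if_neg (not_lt.2 h)]; simp
  · rw [if_neg h, if_pos (not_le.1 h)]; simp

theorem good_lt {p : ℝ} (hp : 1 < p) (hp2 : p < 2) : ∃ C : ℝ, 1 ≤ C ∧
    ∀ (X Ω : Type) [Fintype X] [DecidableEq X] [Nonempty X] [Fintype Ω] (ρ : X × X → ℝ)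
      (h : Ω → X → ℝ) (a r : ℝ) (V : ℕ), (∀ e, 0 ≤ ρ e) → (∀ x y, ρ (x, y) = ρ (y, x)) → 0 < a →
      (∀ e, ∑ ω, |sl ρ (h ω) e| ^ p ≤ 1) → 16 * (8 * Real.log (Fintype.card X) + 1) + 1 ≤ r →
      ∃ φ, Adm ρ φ ∧ (∀ e, row ρ φ e ≤ r) ∧
        ∀ e, ∑ ω, ∑ u ∈ range V, |Er ρ φ a (h ω) e u| ^ p ≤ C * r ^ (2 - p) := by
  obtain ⟨C1, hC1, h1⟩ := hi_sum (p := p) (q := p - 1) 1 (by linarith) (by push_cast; ring)
  obtain ⟨C2, hC2, h2⟩ := geo_hi (q := 2 - p) (by linarith)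
  refine ⟨C1 + 16 * C2, by linarith, ?_⟩
  intro X Ω _ _ _ _ ρ h a r V hρ hρs ha hσ hr
  have hn : (1 : ℝ) ≤ Fintype.card X := by exact_mod_cast Fintype.card_pos
  have hr0 : 0 < r := by have := Real.log_nonneg hn; linarith
  obtain ⟨φ, hadm, hrow, hq⟩ := exists_oper ρ hρ hρs (Θ := Ω × Fin V)
    (fun θ => lam a θ.2 ^ (p - 2)) (fun θ => Real.rpow_nonneg (lam_pos ha _).le _)
    (fun θ f => lo a θ.2 (sl ρ (h θ.1) f)) C2 (by linarith) (fun e => by
      rw [Fintype.sum_prod_type]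
      have : ∀ ω, ∑ u : Fin V, lam a u ^ (p - 2) * lo a u (sl ρ (h ω) e) ^ 2
          ≤ C2 * |sl ρ (h ω) e| ^ p := by
        intro ω
        set t := sl ρ (h ω) e
        rw [Fin.sum_univ_eq_sum_range (fun u => lam a u ^ (p - 2) * lo a u t ^ 2)]
        by_cases ht : t = 0
        · rw [ht]; simp [lo, Real.zero_rpow (show p ≠ 0 by linarith)]
        · have ht' : 0 < |t| := abs_pos.2 ht
          have h3 := mul_le_mul_of_nonneg_right (h2 a ha |t| ht' V) (sq_nonneg |t|)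
          rw [Finset.sum_mul, mul_assoc, ← Real.rpow_add_natCast ht'.ne',
            show -(2 - p) + ((2 : ℕ) : ℝ) = p by push_cast; ring,
            show -(2 - p) = p - 2 by ring] at h3
          refine le_trans (le_of_eq (Finset.sum_congr rfl fun u _ => ?_)) h3
          unfold lo
          split_ifs <;> simp
      refine (Finset.sum_le_sum fun ω _ => this ω).trans ?_
      rw [← Finset.mul_sum]
      exact mul_le_of_le_one_right (by linarith) (hσ e))
  refine ⟨φ, hadm, fun e => by linarith [hrow e], fun e => ?_⟩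
  have k2 : ∑ ω, ∑ u ∈ range V, lam a u ^ (p - 2) * |Er ρ φ a (h ω) e u| ^ 2 ≤ 16 * C2 := by
    have := hq e
    rw [Fintype.sum_prod_type] at this
    refine le_trans (le_of_eq (Finset.sum_congr rfl fun ω _ => ?_)) this
    rw [← Fin.sum_univ_eq_sum_range (fun u => lam a u ^ (p - 2) * |Er ρ φ a (h ω) e u| ^ 2)]
    exact Finset.sum_congr rfl fun u _ => by rw [sq_abs]; rfl
  have k0 : ∀ f, ∑ ω, ∑ u ∈ range V, lam a u ^ (p - 1) * |sl ρ (h ω) f - lo a u (sl ρ (h ω) f)|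
      ≤ C1 := by
    intro f
    have : ∀ ω, ∑ u ∈ range V, lam a u ^ (p - 1) * |sl ρ (h ω) f - lo a u (sl ρ (h ω) f)|
        ≤ C1 * |sl ρ (h ω) f| ^ p := by
      intro ω
      have := h1 a ha (sl ρ (h ω) f) V
      simp only [pow_one] at this
      simpa only [abs_hi] using this
    refine (Finset.sum_le_sum fun ω _ => this ω).trans ?_
    rw [← Finset.mul_sum]
    exact mul_le_of_le_one_right (by linarith) (hσ f)
  have k1 : ∑ ω, ∑ u ∈ range V, lam a u ^ (p - 1) * |Er ρ φ a (h ω) e u| ≤ C1 * r := by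
    have b1 : ∑ ω, ∑ u ∈ range V, lam a u ^ (p - 1) * |Er ρ φ a (h ω) e u|
        ≤ ∑ ω, ∑ u ∈ range V, (lam a u ^ (p - 1) * |sl ρ (h ω) e - lo a u (sl ρ (h ω) e)|
          + ∑ f, |sl ρ (φ f) e| *
            (lam a u ^ (p - 1) * |sl ρ (h ω) f - lo a u (sl ρ (h ω) f)|)) := by
      refine Finset.sum_le_sum fun ω _ => Finset.sum_le_sum fun u _ => ?_
      rw [Er_eq hadm, abs_neg]
      have c1 := abs_T_le ρ φ (fun f => sl ρ (h ω) f - lo a u (sl ρ (h ω) f)) e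
      have c2 := (abs_sub _ _).trans (add_le_add
        (le_refl |sl ρ (h ω) e - lo a u (sl ρ (h ω) e)|) c1)
      refine (mul_le_mul_of_nonneg_left c2 (Real.rpow_nonneg (lam_pos ha u).le _)).trans
        (le_of_eq ?_)
      rw [mul_add, Finset.mul_sum]
      congr 1
      exact Finset.sum_congr rfl fun f _ => by ring
    simp only [Finset.sum_add_distrib] at b1
    have b2 : ∑ ω, ∑ u ∈ range V, ∑ f, |sl ρ (φ f) e| *
            (lam a u ^ (p - 1) * |sl ρ (h ω) f - lo a u (sl ρ (h ω) f)|)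
        = ∑ f, |sl ρ (φ f) e| * ∑ ω, ∑ u ∈ range V,
            (lam a u ^ (p - 1) * |sl ρ (h ω) f - lo a u (sl ρ (h ω) f)|) := by
      simp_rw [Finset.mul_sum]
      rw [Finset.sum_comm (s := (univ : Finset (X × X)))]
      exact Finset.sum_congr rfl fun ω _ => Finset.sum_comm
    have b3 : ∑ f, |sl ρ (φ f) e| * ∑ ω, ∑ u ∈ range V,
            (lam a u ^ (p - 1) * |sl ρ (h ω) f - lo a u (sl ρ (h ω) f)|) ≤ row ρ φ e * C1 := by
      unfold row
      rw [Finset.sum_mul]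
      exact Finset.sum_le_sum fun f _ => mul_le_mul_of_nonneg_left (k0 f) (abs_nonneg _)
    have b4 := k0 e
    have b5 := mul_le_mul_of_nonneg_right (show row ρ φ e + 1 ≤ r by linarith [hrow e])
      (show 0 ≤ C1 by linarith)
    rw [b2] at b1
    linarith
  have k3 : ∑ ω, ∑ u ∈ range V, |Er ρ φ a (h ω) e u| ^ p
      ≤ r ^ (1 - p) * ∑ ω, ∑ u ∈ range V, lam a u ^ (p - 1) * |Er ρ φ a (h ω) e u|
        + r ^ (2 - p) * ∑ ω, ∑ u ∈ range V, lam a u ^ (p - 2) * |Er ρ φ a (h ω) e u| ^ 2 := by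
    simp_rw [Finset.mul_sum, ← Finset.sum_add_distrib]
    exact Finset.sum_le_sum fun ω _ => Finset.sum_le_sum fun u _ =>
      interp_pt hp hp2 hr0 (lam_pos ha u) (abs_nonneg _)
  have k4 := mul_le_mul_of_nonneg_left k1 (Real.rpow_nonneg hr0.le (1 - p))
  have k5 := mul_le_mul_of_nonneg_left k2 (Real.rpow_nonneg hr0.le (2 - p))
  have k6 : r ^ (2 - p) = r ^ (1 - p) * r := by
    rw [← Real.rpow_add_one hr0.ne']; congr 1; ring
  have k7 : r ^ (1 - p) * (C1 * r) = C1 * r ^ (2 - p) := by rw [k6]; ring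
  linarith

theorem good_gt {p : ℝ} (hp2 : 2 < p) : ∃ C : ℝ, 1 ≤ C ∧
    ∀ (X Ω : Type) [Fintype X] [DecidableEq X] [Nonempty X] [Fintype Ω] (ρ : X × X → ℝ)
      (h : Ω → X → ℝ) (a r : ℝ) (V : ℕ), (∀ e, 0 ≤ ρ e) → (∀ x y, ρ (x, y) = ρ (y, x)) → 0 < a →
      (∀ e, ∑ ω, |sl ρ (h ω) e| ^ p ≤ 1) → 16 * (8 * Real.log (Fintype.card X) + 1) + 1 ≤ r →
      ∃ φ, Adm ρ φ ∧ (∀ e, row ρ φ e ≤ r) ∧
        (∀ e, ∑ ω, ∑ u ∈ range V, lam a u ^ (p - 2) * |Er ρ φ a (h ω) e u| ^ 2 ≤ C) ∧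
        ∀ e, ∑ ω, (∑ u ∈ range V, |Er ρ φ a (h ω) e u|) ^ p ≤ C * r ^ (p - 2) := by
  obtain ⟨C1, hC1, h1⟩ := hi_sum (p := p) (q := p - 2) 2 (by linarith) (by push_cast; ring)
  obtain ⟨C2, hC2, h2⟩ := psi_bound hp2
  refine ⟨C2 * (16 * C1), by nlinarith, ?_⟩
  intro X Ω _ _ _ _ ρ h a r V hρ hρs ha hσ hr
  have hn : (1 : ℝ) ≤ Fintype.card X := by exact_mod_cast Fintype.card_pos
  have hr0 : 0 < r := by have := Real.log_nonneg hn; linarith
  obtain ⟨φ, hadm, hrow, hq⟩ := exists_oper ρ hρ hρs (Θ := Ω × Fin V)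
    (fun θ => lam a θ.2 ^ (p - 2)) (fun θ => Real.rpow_nonneg (lam_pos ha _).le _)
    (fun θ f => sl ρ (h θ.1) f - lo a θ.2 (sl ρ (h θ.1) f)) C1 (by linarith) (fun e => by
      rw [Fintype.sum_prod_type]
      have : ∀ ω, ∑ u : Fin V, lam a u ^ (p - 2) * (sl ρ (h ω) e - lo a u (sl ρ (h ω) e)) ^ 2
          ≤ C1 * |sl ρ (h ω) e| ^ p := by
        intro ω
        set t := sl ρ (h ω) e
        rw [Fin.sum_univ_eq_sum_range (fun u => lam a u ^ (p - 2) * (t - lo a u t) ^ 2)]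
        refine le_trans (le_of_eq (Finset.sum_congr rfl fun u _ => ?_)) (h1 a ha t V)
        rw [← sq_abs, abs_hi]
        split_ifs <;> simp
      refine (Finset.sum_le_sum fun ω _ => this ω).trans ?_
      rw [← Finset.mul_sum]
      exact mul_le_of_le_one_right (by linarith) (hσ e))
  have k2 : ∀ e, ∑ ω, ∑ u ∈ range V, lam a u ^ (p - 2) * |Er ρ φ a (h ω) e u| ^ 2 ≤ 16 * C1 := by
    intro e
    have := hq e
    rw [Fintype.sum_prod_type] at this
    refine le_trans (le_of_eq (Finset.sum_congr rfl fun ω _ => ?_)) this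
    rw [← Fin.sum_univ_eq_sum_range (fun u => lam a u ^ (p - 2) * |Er ρ φ a (h ω) e u| ^ 2)]
    exact Finset.sum_congr rfl fun u _ => by rw [sq_abs, Er_eq hadm, neg_sq]
  refine ⟨φ, hadm, fun e => by linarith [hrow e], fun e => ?_, fun e => ?_⟩
  · have := k2 e
    nlinarith
  · have b1 : ∀ ω, (∑ u ∈ range V, |Er ρ φ a (h ω) e u|) ^ p ≤ C2 * r ^ (p - 2) *
        ∑ u ∈ range V, lam a u ^ (p - 2) * |Er ρ φ a (h ω) e u| ^ 2 := by
      intro ω
      refine h2 a ha r hr0 _ V (fun u => abs_nonneg _) (fun u => ?_)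
      have c1 := abs_T_le' ρ φ (fun f => lo a u (sl ρ (h ω) f)) e (fun f => abs_lo_le ha u _)
      have c2 := abs_lo_le ha u (sl ρ (h ω) e)
      have c3 := mul_le_mul_of_nonneg_right (show row ρ φ e + 1 ≤ r by linarith [hrow e])
        (lam_pos ha u).le
      unfold Er
      refine (abs_sub _ _).trans ?_
      linarith
    refine (Finset.sum_le_sum fun ω _ => b1 ω).trans ?_
    rw [← Finset.mul_sum]
    have := mul_le_mul_of_nonneg_left (k2 e)
      (show 0 ≤ C2 * r ^ (p - 2) from mul_nonneg (by linarith) (Real.rpow_nonneg hr0.le _))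
    linarith

section
variable {X : Type*} [Fintype X] [DecidableEq X]

lemma band_err (ρ : X × X → ℝ) (φ : X × X → X → ℝ) (a : ℝ) (g : X → ℝ) (e : X × X) (W K s : ℕ) :
    |T ρ φ (fun f => tau W K a s (sl ρ g f)) e - tau W K a s (sl ρ g e)|
      ≤ avg W (fun u => |Er ρ φ a g e u|) (s + K * W) + avg W (fun u => |Er ρ φ a g e u|) (s + 0) := by
  have h1 : T ρ φ (fun f => tau W K a s (sl ρ g f)) e - tau W K a s (sl ρ g e)
      = (∑ b ∈ range W, (Er ρ φ a g e (s + b) - Er ρ φ a g e (s + K * W + b))) / W := by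
    unfold Er T tau
    have : ∑ f, (∑ b ∈ range W, (lo a (s + K * W + b) (sl ρ g f) - lo a (s + b) (sl ρ g f))) / W *
        sl ρ (φ f) e = (∑ b ∈ range W, (∑ f, lo a (s + K * W + b) (sl ρ g f) * sl ρ (φ f) e
          - ∑ f, lo a (s + b) (sl ρ g f) * sl ρ (φ f) e)) / W := by
      simp_rw [← Finset.sum_sub_distrib]
      rw [Finset.sum_comm, Finset.sum_div]
      refine Finset.sum_congr rfl fun f _ => ?_
      rw [div_mul_eq_mul_div, Finset.sum_mul]
      congr 1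
      exact Finset.sum_congr rfl fun b _ => by ring
    rw [this, ← sub_div, ← Finset.sum_sub_distrib]
    congr 1
    exact Finset.sum_congr rfl fun b _ => by ring
  rw [h1, abs_div, Nat.abs_cast]
  unfold avg
  rw [← add_div, ← Finset.sum_add_distrib]
  refine div_le_div_of_nonneg_right ((Finset.abs_sum_le_sum_abs _ _).trans
    (Finset.sum_le_sum fun b _ => ?_)) (Nat.cast_nonneg _)
  have := abs_sub (Er ρ φ a g e (s + b)) (Er ρ φ a g e (s + K * W + b))
  simp only [add_zero]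
  linarith

end

end Crest.Agent.DR
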