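import Mathlib

/-! Discrete heat kernel of a reversible chain and entropy dissipation. -/

set_option autoImplicit false
set_option linter.unusedSectionVars false
set_option linter.unusedVariables false
open Finset

namespace Crest.Agent.DR

/-- symmetric conductances `c`, vertex weights `μ` and a small time step -/
structure Net (X : Type*) [Fintype X] where
  c : X → X → ℝ
  μ : X → ℝ
  ε : ℝ
  c0 : ∀ x y, 0 ≤ c x y
  csymm : ∀ x y, c x y = c y x
  μ0 : ∀ x, 0 < μ x
  μ1 : ∑ x, μ x = 1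
  ε0 : 0 < ε
  small : ∀ x, ε * ∑ y, c x y ≤ μ x / 2

variable {X : Type*} [Fintype X] [DecidableEq X]

namespace Net
variable (N : Net X)

noncomputable def P (g : X → ℝ) : X → ℝ :=
  fun x => g x - N.ε / N.μ x * ∑ y, N.c x y * (g x - g y)

noncomputable def K (j : ℕ) (v : X) : X → ℝ :=
  N.P^[j] (fun x => if x = v then 1 / N.μ v else 0)

lemma P_sum {ι : Type*} (s : Finset ι) (a : ι → ℝ) (g : ι → X → ℝ) (x : X) :
    N.P (fun x => ∑ i ∈ s, a i * g i x) x = ∑ i ∈ s, a i * N.P (g i) x := by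
  unfold P
  have : ∑ y, N.c x y * (∑ i ∈ s, a i * g i x - ∑ i ∈ s, a i * g i y)
      = ∑ i ∈ s, a i * ∑ y, N.c x y * (g i x - g i y) := by
    simp_rw [← Finset.sum_sub_distrib, Finset.mul_sum]
    rw [Finset.sum_comm]
    exact Finset.sum_congr rfl fun i _ => Finset.sum_congr rfl fun y _ => by ring
  rw [this, Finset.mul_sum, ← Finset.sum_sub_distrib]
  exact Finset.sum_congr rfl fun i _ => by ring

lemma iter_sum {ι : Type*} (s : Finset ι) (a : ι → ℝ) (g : ι → X → ℝ) (j : ℕ) :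
    N.P^[j] (fun x => ∑ i ∈ s, a i * g i x) = fun x => ∑ i ∈ s, a i * N.P^[j] (g i) x := by
  induction j with
  | zero => rfl
  | succ j ih =>
    rw [Function.iterate_succ_apply', ih]
    funext x
    rw [P_sum]
    simp_rw [Function.iterate_succ_apply']

lemma iter_eq (j : ℕ) (g : X → ℝ) (x : X) :
    N.P^[j] g x = ∑ v, (N.μ v * g v) * N.K j v x := by
  have : g = fun x => ∑ v, (N.μ v * g v) * (if x = v then 1 / N.μ v else 0) := by
    funext x
    rw [Finset.sum_eq_single x]
    · simp; field_simp [(N.μ0 x).ne']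
    · intro v _ hv; simp [Ne.symm hv]
    · simp
  conv_lhs => rw [this]
  rw [iter_sum]; rfl

lemma dir_symm (f g : X → ℝ) :
    ∑ x, (∑ y, N.c x y * (f x - f y)) * g x = ∑ x, f x * ∑ y, N.c x y * (g x - g y) := by
  have h1 : ∑ x, ∑ y, N.c x y * f y * g x = ∑ x, ∑ y, N.c x y * f x * g y := by
    rw [Finset.sum_comm]
    exact Finset.sum_congr rfl fun x _ => Finset.sum_congr rfl fun y _ => by rw [N.csymm]
  simp_rw [Finset.sum_mul, Finset.mul_sum]
  have e1 : ∑ x, ∑ y, N.c x y * (f x - f y) * g x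
      = ∑ x, ∑ y, N.c x y * f x * g x - ∑ x, ∑ y, N.c x y * f y * g x := by
    simp_rw [← Finset.sum_sub_distrib]
    exact Finset.sum_congr rfl fun x _ => Finset.sum_congr rfl fun y _ => by ring
  have e2 : ∑ x, ∑ y, f x * (N.c x y * (g x - g y))
      = ∑ x, ∑ y, N.c x y * f x * g x - ∑ x, ∑ y, N.c x y * f x * g y := by
    simp_rw [← Finset.sum_sub_distrib]
    exact Finset.sum_congr rfl fun x _ => Finset.sum_congr rfl fun y _ => by ring
  rw [e1, e2, h1]

lemma P_adj (f g : X → ℝ) :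
    ∑ x, N.μ x * (N.P f x * g x) = ∑ x, N.μ x * (f x * N.P g x) := by
  have h1 : ∀ x, N.μ x * (N.P f x * g x)
      = N.μ x * (f x * g x) - N.ε * ((∑ y, N.c x y * (f x - f y)) * g x) := by
    intro x; unfold P; field_simp [(N.μ0 x).ne']
  have h2 : ∀ x, N.μ x * (f x * N.P g x)
      = N.μ x * (f x * g x) - N.ε * (f x * ∑ y, N.c x y * (g x - g y)) := by
    intro x; unfold P; field_simp [(N.μ0 x).ne']
  simp_rw [h1, h2, Finset.sum_sub_distrib, ← Finset.mul_sum]
  rw [dir_symm]

lemma iter_adj (j : ℕ) (f g : X → ℝ) :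
    ∑ x, N.μ x * (N.P^[j] f x * g x) = ∑ x, N.μ x * (f x * N.P^[j] g x) := by
  induction j generalizing g with
  | zero => rfl
  | succ j ih =>
    rw [Function.iterate_succ_apply', P_adj, ih, Function.iterate_succ_apply]

lemma K_symm (j : ℕ) (v x : X) : N.K j v x = N.K j x v := by
  have h := N.iter_adj j (fun z => if z = v then 1 / N.μ v else 0)
    (fun z => if z = x then 1 / N.μ x else 0)
  rw [Finset.sum_eq_single x, Finset.sum_eq_single v] at h
  · simp only [if_true] at h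
    have h1 := (N.μ0 x).ne'
    have h2 := (N.μ0 v).ne'
    unfold K
    field_simp at h
    exact h
  · intro z _ hz; simp [hz]
  · simp
  · intro z _ hz; simp [hz]
  · simp

lemma K_add (a b : ℕ) (i x : X) :
    N.K (a + b) i x = ∑ v, N.μ v * (N.K b v i * N.K a v x) := by
  have : N.K (a + b) i = N.P^[a] (N.K b i) := by
    unfold K; rw [Function.iterate_add_apply]
  rw [this, iter_eq]
  exact Finset.sum_congr rfl fun v _ => by rw [N.K_symm b i v]; ring

lemma P_mass (g : X → ℝ) : ∑ x, N.μ x * N.P g x = ∑ x, N.μ x * g x := by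
  have h := N.P_adj g (fun _ => 1)
  have h1 : ∀ x, N.P (fun _ => (1 : ℝ)) x = 1 := by intro x; simp [P]
  simpa [h1] using h

lemma P_eq (g : X → ℝ) (x : X) :
    N.P g x = (1 - ∑ y, N.ε / N.μ x * N.c x y) * g x + ∑ y, N.ε / N.μ x * N.c x y * g y := by
  unfold P
  rw [Finset.mul_sum, sub_mul, Finset.sum_mul, one_mul, sub_add, ← Finset.sum_sub_distrib]
  congr 1
  exact Finset.sum_congr rfl fun y _ => by ring

lemma w0 (x y : X) : 0 ≤ N.ε / N.μ x * N.c x y :=
  mul_nonneg (div_nonneg N.ε0.le (N.μ0 x).le) (N.c0 x y)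

lemma wle (x : X) : ∑ y, N.ε / N.μ x * N.c x y ≤ 1 / 2 := by
  rw [← Finset.mul_sum, div_mul_eq_mul_div, div_le_iff₀ (N.μ0 x)]
  have := N.small x
  linarith

lemma P_nonneg {g : X → ℝ} (hg : ∀ x, 0 ≤ g x) (x : X) : 0 ≤ N.P g x := by
  rw [P_eq]
  have := N.wle x
  exact add_nonneg (mul_nonneg (by linarith) (hg x))
    (Finset.sum_nonneg fun y _ => mul_nonneg (N.w0 x y) (hg y))

lemma K_nonneg (j : ℕ) (v x : X) : 0 ≤ N.K j v x := by
  induction j generalizing x with
  | zero =>
    simp only [K, Function.iterate_zero, id]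
    split_ifs
    · exact (one_div_pos.2 (N.μ0 v)).le
    · exact le_rfl
  | succ j ih =>
    unfold K at *
    rw [Function.iterate_succ_apply']
    exact N.P_nonneg ih x

lemma K_succ (j : ℕ) (v : X) : N.K (j + 1) v = N.P (N.K j v) := by
  unfold K; rw [Function.iterate_succ_apply']

lemma K_mass (j : ℕ) (v : X) : ∑ x, N.μ x * N.K j v x = 1 := by
  induction j with
  | zero =>
    simp only [K, Function.iterate_zero, id]
    rw [Finset.sum_eq_single v]
    · simp; field_simp [(N.μ0 v).ne']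
    · intro z _ hz; simp [hz]
    · simp
  | succ j ih => rw [K_succ, P_mass, ih]

end Net

lemma gap_pt {a m : ℝ} (ha : 0 ≤ a) (hm : 0 < m) :
    (√a - √m) ^ 2 ≤ a * Real.log a - a * Real.log m - a + m := by
  rcases ha.eq_or_lt with h0 | h0
  · rw [← h0]; simp [Real.sq_sqrt hm.le]
  · have hsa : 0 < √a := Real.sqrt_pos.2 h0
    have hsm : 0 < √m := Real.sqrt_pos.2 hm
    have h1 := Real.log_le_sub_one_of_pos (div_pos hsm hsa)
    rw [Real.log_div hsm.ne' hsa.ne', Real.log_sqrt hm.le, Real.log_sqrt ha] at h1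
    have h2 : a * (√m / √a) = √a * √m := by
      have := Real.mul_self_sqrt ha
      field_simp
      nlinarith
    have h3 := mul_le_mul_of_nonneg_left h1 ha
    have h4 := Real.sq_sqrt ha
    have h5 := Real.sq_sqrt hm.le
    nlinarith

lemma jensen_gap {ι : Type*} [Fintype ι] (w a : ι → ℝ) (a0 : ℝ) (hw : ∀ y, 0 ≤ w y)
    (hs : ∑ y, w y ≤ 1 / 2) (ha : ∀ y, 0 ≤ a y) (ha0 : 0 ≤ a0) (m : ℝ)
    (hm : m = (1 - ∑ y, w y) * a0 + ∑ y, w y * a y) :
    (1 / 2) * ∑ y, w y * (√a0 - √(a y)) ^ 2 ≤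
      (1 - ∑ y, w y) * (a0 * Real.log a0) + ∑ y, w y * (a y * Real.log (a y)) - m * Real.log m := by
  have hsum : 0 ≤ ∑ y, w y * a y := Finset.sum_nonneg fun y _ => mul_nonneg (hw y) (ha y)
  have h1 : 0 ≤ (1 - ∑ y, w y) * a0 := mul_nonneg (by linarith) ha0
  have hm0 : 0 ≤ m := by linarith
  rcases hm0.eq_or_lt with h0 | h0
  · have ha00 : a0 = 0 := by
      have : (1 - ∑ y, w y) * a0 = 0 := by linarith
      rcases mul_eq_zero.1 this with h | h
      · linarith
      · exact h
    have hz : ∀ y, w y * a y = 0 := by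
      intro y
      have : ∑ y, w y * a y = 0 := by linarith
      exact (Finset.sum_eq_zero_iff_of_nonneg (fun y _ => mul_nonneg (hw y) (ha y))).1 this y
        (mem_univ y)
    have e1 : ∀ y, w y * (√a0 - √(a y)) ^ 2 = 0 := by
      intro y
      rw [ha00]; simp only [Real.sqrt_zero, zero_sub, even_two, Even.neg_pow]
      rw [Real.sq_sqrt (ha y)]; exact hz y
    have e2 : ∀ y, w y * (a y * Real.log (a y)) = 0 := by
      intro y; rw [← mul_assoc, hz y, zero_mul]
    simp only [e1, e2]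
    simp [ha00, ← h0]
  · have g0 := gap_pt ha0 h0
    have g1 : ∑ y, w y * (√(a y) - √m) ^ 2
        ≤ ∑ y, w y * (a y * Real.log (a y) - a y * Real.log m - a y + m) :=
      Finset.sum_le_sum fun y _ => mul_le_mul_of_nonneg_left (gap_pt (ha y) h0) (hw y)
    have g2 : ∑ y, w y * (a y * Real.log (a y) - a y * Real.log m - a y + m)
        = ∑ y, w y * (a y * Real.log (a y)) - (∑ y, w y * a y) * Real.log m - ∑ y, w y * a y
          + (∑ y, w y) * m := by
      simp_rw [Finset.sum_mul, ← Finset.sum_sub_distrib, ← Finset.sum_add_distrib]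
      exact Finset.sum_congr rfl fun y _ => by ring
    have g3 : (1 / 2) * ∑ y, w y * (√a0 - √(a y)) ^ 2
        ≤ (∑ y, w y) * (√a0 - √m) ^ 2 + ∑ y, w y * (√(a y) - √m) ^ 2 := by
      rw [Finset.mul_sum, Finset.sum_mul, ← Finset.sum_add_distrib]
      refine Finset.sum_le_sum fun y _ => ?_
      have := hw y
      nlinarith [mul_nonneg this (sq_nonneg (√a0 + √(a y) - 2 * √m))]
    have g4 : (∑ y, w y) * (√a0 - √m) ^ 2 ≤ (1 - ∑ y, w y) * (√a0 - √m) ^ 2 :=
      mul_le_mul_of_nonneg_right (by linarith) (sq_nonneg _)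
    have g5 := mul_le_mul_of_nonneg_left g0 (show 0 ≤ 1 - ∑ y, w y by linarith)
    have g6 : m * Real.log m = ((1 - ∑ y, w y) * a0 + ∑ y, w y * a y) * Real.log m := by
      rw [← hm]
    nlinarith

namespace Net
variable (N : Net X)

noncomputable def ent (g : X → ℝ) : ℝ := ∑ x, N.μ x * (g x * Real.log (g x))

noncomputable def hel (g : X → ℝ) : ℝ := ∑ x, ∑ y, N.c x y * (√(g x) - √(g y)) ^ 2

lemma hel_nonneg (g : X → ℝ) : 0 ≤ N.hel g :=
  Finset.sum_nonneg fun x _ => Finset.sum_nonneg fun y _ => mul_nonneg (N.c0 x y) (sq_nonneg _)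

lemma ent_step {g : X → ℝ} (hg : ∀ x, 0 ≤ g x) :
    N.ε / 2 * N.hel g ≤ N.ent g - N.ent (N.P g) := by
  have h1 : N.ent g = ∑ x, N.μ x * N.P (fun x => g x * Real.log (g x)) x := by
    rw [P_mass]; rfl
  rw [h1]
  unfold ent hel
  rw [← Finset.sum_sub_distrib, Finset.mul_sum]
  refine Finset.sum_le_sum fun x _ => ?_
  have h := jensen_gap (fun y => N.ε / N.μ x * N.c x y) g (g x) (N.w0 x) (N.wle x) hg (hg x)
    (N.P g x) (N.P_eq g x)
  rw [N.P_eq (fun x => g x * Real.log (g x)) x, ← mul_sub]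
  have h2 := mul_le_mul_of_nonneg_left h (N.μ0 x).le
  refine le_trans (le_of_eq ?_) h2
  rw [Finset.mul_sum, Finset.mul_sum, Finset.mul_sum]
  refine Finset.sum_congr rfl fun y _ => ?_
  field_simp [(N.μ0 x).ne']

lemma ent_K_nonneg (j : ℕ) (v : X) : 0 ≤ N.ent (N.K j v) := by
  have h1 : ∑ x, N.μ x * (N.K j v x - 1) = 0 := by
    simp_rw [mul_sub, Finset.sum_sub_distrib, mul_one]
    rw [N.K_mass, N.μ1, sub_self]
  rw [← h1]
  refine Finset.sum_le_sum fun x _ => mul_le_mul_of_nonneg_left ?_ (N.μ0 x).le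
  have h := gap_pt (N.K_nonneg j v x) one_pos
  simp only [Real.log_one, mul_zero, sub_zero] at h
  nlinarith [sq_nonneg (√(N.K j v x) - √1)]

lemma hel_sum (J : ℕ) (v : X) :
    N.ε / 2 * ∑ a ∈ range J, N.hel (N.K a v) ≤ - Real.log (N.μ v) := by
  have h1 : ∀ J, N.ε / 2 * ∑ a ∈ range J, N.hel (N.K a v) ≤ N.ent (N.K 0 v) - N.ent (N.K J v) := by
    intro J
    induction J with
    | zero => simp
    | succ J ih =>
      rw [Finset.sum_range_succ, mul_add, K_succ]
      have := N.ent_step (N.K_nonneg J v)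
      linarith
  have h2 : N.ent (N.K 0 v) = - Real.log (N.μ v) := by
    simp only [ent, K, Function.iterate_zero, id]
    rw [Finset.sum_eq_single v]
    · simp; field_simp [(N.μ0 v).ne']
    · intro z _ hz; simp [hz]
    · simp
  have := h1 J
  have := N.ent_K_nonneg J v
  linarith

lemma sum_log_le : ∑ v, N.μ v * (- Real.log (N.μ v)) ≤ Real.log (Fintype.card X) := by
  have hne : Nonempty X := by
    by_contra h
    rw [not_nonempty_iff] at h
    have := N.μ1
    simp at this
  have hn : (0 : ℝ) < Fintype.card X := by exact_mod_cast Fintype.card_pos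
  have h1 : ∀ v, N.μ v * (- Real.log (N.μ v))
      ≤ N.μ v * Real.log (Fintype.card X) + (1 / Fintype.card X - N.μ v) := by
    intro v
    have hv := N.μ0 v
    have h := Real.log_le_sub_one_of_pos (show 0 < 1 / (Fintype.card X * N.μ v) by positivity)
    rw [one_div, Real.log_inv, Real.log_mul hn.ne' hv.ne'] at h
    have h2 := mul_le_mul_of_nonneg_left h hv.le
    have h3 : N.μ v * ((Fintype.card X * N.μ v)⁻¹ - 1) = 1 / Fintype.card X - N.μ v := by
      field_simp
    rw [h3] at h2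
    linarith
  refine (Finset.sum_le_sum fun v _ => h1 v).trans (le_of_eq ?_)
  rw [Finset.sum_add_distrib, ← Finset.sum_mul, Finset.sum_sub_distrib, N.μ1]
  simp

end Net

end Crest.Agent.DR
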