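import Mathlib

/-! Scalar inequalities for `|x|^p`. -/

set_option autoImplicit false
set_option linter.unusedVariables false
open Finset

namespace Crest.Agent.DR

lemma conv2 {p : ℝ} (hp : 1 ≤ p) {w1 w2 : ℝ} (h1 : 0 ≤ w1) (h2 : 0 ≤ w2) (h : w1 + w2 = 1)
    (a b : ℝ) : |w1 * a + w2 * b| ^ p ≤ w1 * |a| ^ p + w2 * |b| ^ p := by
  have h3 : |w1 * a + w2 * b| ≤ w1 * |a| + w2 * |b| := by
    refine (abs_add_le _ _).trans (le_of_eq ?_)
    rw [abs_mul, abs_mul, abs_of_nonneg h1, abs_of_nonneg h2]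
  refine (Real.rpow_le_rpow (abs_nonneg _) h3 (by linarith)).trans ?_
  exact (convexOn_rpow hp).2 (abs_nonneg a) (abs_nonneg b) h1 h2 h

lemma split_ineq {p : ℝ} (hp : 1 ≤ p) {η : ℝ} (hη : 0 < η) :
    ∃ C : ℝ, 1 ≤ C ∧ ∀ a b : ℝ, |a + b| ^ p ≤ (1 + η) * |a| ^ p + C * |b| ^ p := by
  have hp0 : 0 < p := by linarith
  set θ : ℝ := (1 + η) ^ (-(1 / p)) with hθ
  have hθ0 : 0 < θ := Real.rpow_pos_of_pos (by linarith) _
  have hθ1 : θ < 1 := Real.rpow_lt_one_of_one_lt_of_neg (by linarith) (by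
    have : 0 < 1 / p := by positivity
    linarith)
  have hθp : θ ^ p = (1 + η)⁻¹ := by
    rw [hθ, ← Real.rpow_mul (by linarith), neg_mul, one_div_mul_cancel hp0.ne',
      Real.rpow_neg_one]
  refine ⟨max 1 ((1 - θ) ^ p)⁻¹, le_max_left _ _, fun a b => ?_⟩
  have h1θ : 0 < 1 - θ := by linarith
  have h := conv2 hp hθ0.le h1θ.le (by ring) (a / θ) (b / (1 - θ))
  rw [mul_div_cancel₀ _ hθ0.ne', mul_div_cancel₀ _ h1θ.ne', abs_div, abs_div, abs_of_pos hθ0,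
    abs_of_pos h1θ, Real.div_rpow (abs_nonneg _) hθ0.le, Real.div_rpow (abs_nonneg _) h1θ.le,
    hθp] at h
  have ha : 0 ≤ |a| ^ p := Real.rpow_nonneg (abs_nonneg _) _
  have hb : 0 ≤ |b| ^ p := Real.rpow_nonneg (abs_nonneg _) _
  have e1 : θ * (|a| ^ p / (1 + η)⁻¹) ≤ (1 + η) * |a| ^ p := by
    rw [div_inv_eq_mul]
    have : 0 ≤ |a| ^ p * (1 + η) := by positivity
    nlinarith
  have e2 : (1 - θ) * (|b| ^ p / (1 - θ) ^ p) ≤ max 1 ((1 - θ) ^ p)⁻¹ * |b| ^ p := by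
    have h3 : 0 ≤ |b| ^ p / (1 - θ) ^ p := div_nonneg hb (Real.rpow_nonneg h1θ.le _)
    have h4 : |b| ^ p / (1 - θ) ^ p ≤ max 1 ((1 - θ) ^ p)⁻¹ * |b| ^ p := by
      rw [div_eq_inv_mul]
      exact mul_le_mul_of_nonneg_right (le_max_right _ _) hb
    nlinarith
  linarith

lemma sym_lower {p : ℝ} (hp : 1 ≤ p) (x a : ℝ) : |x| ^ p ≤ (|x + a| ^ p + |x - a| ^ p) / 2 := by
  have h := conv2 hp (w1 := 1 / 2) (w2 := 1 / 2) (by norm_num) (by norm_num) (by norm_num)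
    (x + a) (x - a)
  rw [show 1 / 2 * (x + a) + 1 / 2 * (x - a) = x by ring] at h
  linarith

lemma add_pow_le {p : ℝ} (hp : 1 ≤ p) (x a : ℝ) : |x + a| ^ p ≤ 2 ^ p * (|x| ^ p + |a| ^ p) := by
  have h := conv2 hp (w1 := 1 / 2) (w2 := 1 / 2) (by norm_num) (by norm_num) (by norm_num)
    (2 * x) (2 * a)
  rw [show 1 / 2 * (2 * x) + 1 / 2 * (2 * a) = x + a by ring, abs_mul, abs_mul,
    abs_two, Real.mul_rpow zero_le_two (abs_nonneg _),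
    Real.mul_rpow zero_le_two (abs_nonneg _)] at h
  have ha : 0 ≤ |a| ^ p := Real.rpow_nonneg (abs_nonneg _) _
  have hb : 0 ≤ |x| ^ p := Real.rpow_nonneg (abs_nonneg _) _
  have h2 : (0 : ℝ) ≤ 2 ^ p := Real.rpow_nonneg zero_le_two _
  nlinarith [mul_nonneg h2 ha, mul_nonneg h2 hb]

lemma sym_upper {p : ℝ} (hp : 1 ≤ p) (x a : ℝ) :
    (|x + a| ^ p + |x - a| ^ p) / 2 ≤ 2 ^ p * (|x| ^ p + |a| ^ p) := by
  have h1 := add_pow_le hp x a
  have h2 := add_pow_le hp x (-a)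
  rw [abs_neg, ← sub_eq_add_neg] at h2
  linarith

lemma abs_rpow_eq {p : ℝ} (x : ℝ) : |x| ^ p = (x ^ 2) ^ (p / 2) := by
  rw [← sq_abs, ← Real.rpow_natCast, ← Real.rpow_mul (abs_nonneg _)]
  congr 1; push_cast; ring

lemma sym_sub {p : ℝ} (hp0 : 0 ≤ p) (hp : p ≤ 2) (x a : ℝ) :
    (|x + a| ^ p + |x - a| ^ p) / 2 ≤ |x| ^ p + |a| ^ p := by
  simp only [abs_rpow_eq]
  have h := (Real.concaveOn_rpow (p := p / 2) (by linarith) (by linarith)).2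
    (sq_nonneg (x + a)) (sq_nonneg (x - a)) (show (0 : ℝ) ≤ 1 / 2 by norm_num)
    (show (0 : ℝ) ≤ 1 / 2 by norm_num) (by norm_num)
  simp only [smul_eq_mul] at h
  rw [show 1 / 2 * (x + a) ^ 2 + 1 / 2 * (x - a) ^ 2 = x ^ 2 + a ^ 2 by ring] at h
  have h2 := Real.rpow_add_le_add_rpow (p := p / 2) (sq_nonneg x) (sq_nonneg a) (by linarith)
    (by linarith)
  linarith

lemma exp_abs_le (z : ℝ) : Real.exp |z| ≤ 2 * Real.cosh z := by
  rw [← Real.cosh_abs, Real.cosh_eq]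
  have := Real.exp_pos (-|z|)
  linarith

lemma rpow_le_cosh {p : ℝ} (hp : 0 ≤ p) : ∃ C : ℝ, 1 ≤ C ∧ ∀ z : ℝ, |z| ^ p ≤ C * Real.cosh z := by
  have hf : (1 : ℝ) ≤ (Nat.factorial ⌈p⌉₊ : ℝ) := by exact_mod_cast Nat.factorial_pos _
  refine ⟨2 * (Nat.factorial ⌈p⌉₊ : ℝ), by linarith, fun z => ?_⟩
  have hc := Real.one_le_cosh z
  rcases le_total |z| 1 with h | h
  · have := Real.rpow_le_one (abs_nonneg z) h hp
    nlinarith
  · have h1 : |z| ^ p ≤ |z| ^ (⌈p⌉₊ : ℝ) := Real.rpow_le_rpow_of_exponent_le h (Nat.le_ceil p)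
    rw [Real.rpow_natCast] at h1
    have h2 := Real.pow_div_factorial_le_exp _ (abs_nonneg z) ⌈p⌉₊
    rw [div_le_iff₀ (by linarith)] at h2
    have h3 := exp_abs_le z
    nlinarith

lemma sq_le_cosh (z : ℝ) : z ^ 2 ≤ 8 * (Real.cosh z - 1) := by
  -- cosh z = 2 cosh (z/2)^2 - 1 = 1 + 2 sinh(z/2)^2 and |sinh t| ≥ |t|
  have h1 : Real.cosh z = 1 + 2 * Real.sinh (z / 2) ^ 2 := by
    have := Real.cosh_two_mul (z / 2)
    rw [show 2 * (z / 2) = z by ring, Real.cosh_sq'] at this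
    linarith
  have h2 : |z / 2| ≤ |Real.sinh (z / 2)| := by
    rw [Real.abs_sinh]; exact Real.self_le_sinh_iff.2 (abs_nonneg _)
  have h3 := sq_le_sq.2 h2
  nlinarith

lemma rpow_le_cosh_sub {p : ℝ} (hp : 2 ≤ p) :
    ∃ C : ℝ, 1 ≤ C ∧ ∀ z : ℝ, |z| ^ p ≤ C * (Real.cosh z - 1) := by
  obtain ⟨C, hC, h⟩ := rpow_le_cosh (p := p) (by linarith)
  refine ⟨9 * C, by linarith, fun z => ?_⟩
  have h1 := sq_le_cosh z
  have hc := Real.one_le_cosh z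
  rcases le_total |z| 1 with h2 | h2
  · have h3 : |z| ^ p ≤ |z| ^ (2 : ℝ) :=
      Real.rpow_le_rpow_of_exponent_ge' (abs_nonneg z) h2 (by norm_num) hp
    rw [Real.rpow_two, sq_abs] at h3
    nlinarith
  · have h3 : 1 ≤ z ^ 2 := by rw [← sq_abs]; nlinarith
    have := h z
    nlinarith

lemma cosh_sub_le {x : ℝ} (hx : |x| ≤ 1) : Real.cosh x - 1 ≤ x ^ 2 := by
  have h1 := (abs_le.1 (Real.abs_exp_sub_one_sub_id_le hx)).2
  have h2 := (abs_le.1 (Real.abs_exp_sub_one_sub_id_le (x := -x) (by rwa [abs_neg]))).2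
  rw [Real.cosh_eq]
  nlinarith

lemma cosh_mul_le (a b : ℝ) :
    Real.cosh a * Real.cosh b ≤ (Real.cosh (2 * a) + Real.cosh (2 * b)) / 2 := by
  rw [Real.cosh_two_mul, Real.cosh_two_mul]
  nlinarith [sq_nonneg (Real.cosh a - Real.cosh b), sq_nonneg (Real.sinh a),
    sq_nonneg (Real.sinh b)]

lemma exp_le_of_le_one {x : ℝ} (h0 : 0 ≤ x) (h1 : x ≤ 1) : Real.exp x ≤ 1 + 2 * x := by
  have h := (abs_le.1 (Real.abs_exp_sub_one_sub_id_le (x := x) (by rwa [abs_of_nonneg h0]))).2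
  nlinarith

end Crest.Agent.DR
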