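import Crest.Agent.DR.Heat

/-! Localization of electrical flows. -/

set_option autoImplicit false
set_option linter.unusedSectionVars false
set_option linter.unusedVariables false
open Finset

namespace Crest.Agent.DR

variable {X : Type*} [Fintype X] [DecidableEq X]

namespace Net
variable (N : Net X) (u : X × X → ℝ)

noncomputable def D (a : ℕ) (v : X) : ℝ := ∑ e : X × X, u e * |N.K a v e.1 - N.K a v e.2|

noncomputable def S (a : ℕ) : ℝ := ∑ v, N.μ v * N.D u a v ^ 2

lemma S_nonneg (a : ℕ) : 0 ≤ N.S u a :=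
  Finset.sum_nonneg fun v _ => mul_nonneg (N.μ0 v).le (sq_nonneg _)

lemma D_sq_le (π : X → X → ℝ) (hπ0 : ∀ x y, 0 ≤ π x y) (hπs : ∀ x y, π x y = π y x)
    (hμ : ∀ x, ∑ y, π x y = N.μ x) (hu0 : ∀ e, 0 ≤ u e)
    (hu : ∀ e : X × X, u e ^ 2 = N.c e.1 e.2 * π e.1 e.2) (a : ℕ) (v : X) :
    N.D u a v ^ 2 ≤ 4 * N.hel (N.K a v) := by
  set g := N.K a v with hg
  have g0 : ∀ x, 0 ≤ g x := N.K_nonneg a v
  have hcs := Finset.sum_sq_le_sum_mul_sum_of_sq_le_mul (Finset.univ : Finset (X × X))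
    (r := fun e => u e * |g e.1 - g e.2|)
    (f := fun e => N.c e.1 e.2 * (√(g e.1) - √(g e.2)) ^ 2)
    (g := fun e => π e.1 e.2 * (2 * (g e.1 + g e.2)))
    (fun e _ => mul_nonneg (N.c0 _ _) (sq_nonneg _))
    (fun e _ => mul_nonneg (hπ0 _ _) (by linarith [g0 e.1, g0 e.2]))
    (fun e _ => by
      rw [mul_pow, hu, sq_abs]
      have h1 := Real.sq_sqrt (g0 e.1)
      have h2 := Real.sq_sqrt (g0 e.2)
      have h3 : (g e.1 - g e.2) ^ 2 ≤ (√(g e.1) - √(g e.2)) ^ 2 * (2 * (g e.1 + g e.2)) := by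
        have : g e.1 - g e.2 = (√(g e.1) - √(g e.2)) * (√(g e.1) + √(g e.2)) := by nlinarith
        rw [this, mul_pow]
        refine mul_le_mul_of_nonneg_left ?_ (sq_nonneg _)
        nlinarith [sq_nonneg (√(g e.1) - √(g e.2))]
      have h4 := mul_le_mul_of_nonneg_left h3 (mul_nonneg (N.c0 e.1 e.2) (hπ0 e.1 e.2))
      nlinarith)
  have e1 : ∑ e : X × X, N.c e.1 e.2 * (√(g e.1) - √(g e.2)) ^ 2 = N.hel g := by
    rw [Fintype.sum_prod_type]; rfl
  have e2 : ∑ e : X × X, π e.1 e.2 * (2 * (g e.1 + g e.2)) = 4 := by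
    have a1 : ∑ x, ∑ y, π x y * g x = 1 := by
      simp_rw [← Finset.sum_mul, hμ]; exact N.K_mass a v
    have a2 : ∑ x, ∑ y, π x y * g y = 1 := by
      rw [Finset.sum_comm, ← a1]
      exact Finset.sum_congr rfl fun x _ => Finset.sum_congr rfl fun y _ => by rw [hπs]
    rw [Fintype.sum_prod_type]
    have : ∑ x, ∑ y, π x y * (2 * (g x + g y))
        = 2 * ∑ x, ∑ y, π x y * g x + 2 * ∑ x, ∑ y, π x y * g y := by
      simp_rw [Finset.mul_sum, ← Finset.sum_add_distrib]
      exact Finset.sum_congr rfl fun x _ => Finset.sum_congr rfl fun y _ => by ring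
    rw [this, a1, a2]; norm_num
  rw [e1, e2] at hcs
  unfold D
  linarith

lemma S_sum (π : X → X → ℝ) (hπ0 : ∀ x y, 0 ≤ π x y) (hπs : ∀ x y, π x y = π y x)
    (hμ : ∀ x, ∑ y, π x y = N.μ x) (hu0 : ∀ e, 0 ≤ u e)
    (hu : ∀ e : X × X, u e ^ 2 = N.c e.1 e.2 * π e.1 e.2) (J : ℕ) :
    N.ε * ∑ a ∈ range J, N.S u a ≤ 8 * Real.log (Fintype.card X) := by
  have h1 : ∑ a ∈ range J, N.S u a ≤ ∑ v, N.μ v * (4 * ∑ a ∈ range J, N.hel (N.K a v)) := by
    unfold S
    rw [Finset.sum_comm]
    refine Finset.sum_le_sum fun v _ => ?_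
    rw [← Finset.mul_sum, Finset.mul_sum (range J) _ 4]
    exact mul_le_mul_of_nonneg_left
      (Finset.sum_le_sum fun a _ => N.D_sq_le u π hπ0 hπs hμ hu0 hu a v) (N.μ0 v).le
  have h2 : N.ε * ∑ v, N.μ v * (4 * ∑ a ∈ range J, N.hel (N.K a v))
      ≤ 8 * ∑ v, N.μ v * (- Real.log (N.μ v)) := by
    rw [Finset.mul_sum, Finset.mul_sum]
    refine Finset.sum_le_sum fun v _ => ?_
    have := mul_le_mul_of_nonneg_left (N.hel_sum J v) (N.μ0 v).le
    nlinarith
  have h3 := N.sum_log_le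
  have h4 := mul_le_mul_of_nonneg_left h1 N.ε0.le
  linarith

lemma term_le (hu0 : ∀ e, 0 ≤ u e) (a b : ℕ) :
    ∑ f : X × X, ∑ e : X × X, u e * (u f * |(N.K (a + b) f.1 e.1 - N.K (a + b) f.2 e.1)
      - (N.K (a + b) f.1 e.2 - N.K (a + b) f.2 e.2)|) ≤ (N.S u a + N.S u b) / 2 := by
  have h1 : ∀ f e : X × X, |(N.K (a + b) f.1 e.1 - N.K (a + b) f.2 e.1)
      - (N.K (a + b) f.1 e.2 - N.K (a + b) f.2 e.2)|
      ≤ ∑ v, N.μ v * (|N.K b v f.1 - N.K b v f.2| * |N.K a v e.1 - N.K a v e.2|) := by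
    intro f e
    simp only [K_add]
    rw [← Finset.sum_sub_distrib, ← Finset.sum_sub_distrib, ← Finset.sum_sub_distrib]
    refine (Finset.abs_sum_le_sum_abs _ _).trans (Finset.sum_le_sum fun v _ => le_of_eq ?_)
    rw [← abs_mul, ← abs_of_pos (N.μ0 v), ← abs_mul, abs_of_pos (N.μ0 v)]
    congr 1; ring
  have h2 : ∑ f : X × X, ∑ e : X × X, u e * (u f * ∑ v, N.μ v *
      (|N.K b v f.1 - N.K b v f.2| * |N.K a v e.1 - N.K a v e.2|))
      = ∑ v, N.μ v * (N.D u b v * N.D u a v) := by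
    unfold D
    simp_rw [Finset.sum_mul_sum, Finset.mul_sum]
    rw [Finset.sum_comm (s := (univ : Finset X))]
    refine Finset.sum_congr rfl fun f _ => ?_
    rw [Finset.sum_comm (s := (univ : Finset X))]
    refine Finset.sum_congr rfl fun e _ => Finset.sum_congr rfl fun v _ => by ring
  have h3 : ∑ v, N.μ v * (N.D u b v * N.D u a v) ≤ (N.S u a + N.S u b) / 2 := by
    unfold S
    rw [← Finset.sum_add_distrib, Finset.sum_div]
    refine Finset.sum_le_sum fun v _ => ?_
    nlinarith [mul_nonneg (N.μ0 v).le (sq_nonneg (N.D u b v - N.D u a v))]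
  refine le_trans ?_ (h2.le.trans h3)
  exact Finset.sum_le_sum fun f _ => Finset.sum_le_sum fun e _ =>
    mul_le_mul_of_nonneg_left (mul_le_mul_of_nonneg_left (h1 f e) (hu0 f)) (hu0 e)

lemma telescope (g : X → ℝ) (J : ℕ) (x : X) :
    g x = N.P^[J] g x + ∑ j ∈ range J, N.P^[j] (fun z => g z - N.P g z) x := by
  induction J with
  | zero => simp
  | succ J ih =>
    rw [Finset.sum_range_succ]
    have h := N.iter_sum (univ : Finset Bool) (fun b => if b then 1 else -1)
      (fun b => if b then g else N.P g) J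
    have h1 : (fun z => g z - N.P g z) = fun x => ∑ b : Bool,
        (if b then (1 : ℝ) else -1) * (if b then g else N.P g) x := by
      funext z; simp; ring
    have h2 : N.P^[J] (fun z => g z - N.P g z) x = N.P^[J] g x - N.P^[J] (N.P g) x := by
      rw [h1, h]
      simp only [Fintype.univ_bool, mem_singleton, Bool.true_eq_false, not_false_eq_true,
        sum_insert, sum_singleton, if_true, Bool.false_eq_true, if_false]
      ring
    rw [Function.iterate_succ_apply, h2]
    linarith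

theorem localization (π : X → X → ℝ) (hπ0 : ∀ x y, 0 ≤ π x y) (hπs : ∀ x y, π x y = π y x)
    (hμ : ∀ x, ∑ y, π x y = N.μ x) (hu0 : ∀ e, 0 ≤ u e)
    (hu : ∀ e : X × X, u e ^ 2 = N.c e.1 e.2 * π e.1 e.2) (φ : X × X → X → ℝ)
    (hφ : ∀ f z, 2 * ∑ y, N.c z y * (φ f z - φ f y)
      = u f * ((if z = f.1 then 1 else 0) - (if z = f.2 then 1 else 0))) :
    ∑ f : X × X, ∑ e : X × X, u e * |φ f e.1 - φ f e.2| ≤ 8 * Real.log (Fintype.card X) + 1 := by
  have hε := N.ε0
  set term : ℕ → ℝ := fun j => ∑ f : X × X, ∑ e : X × X, u e * (u f *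
    |(N.K j f.1 e.1 - N.K j f.2 e.1) - (N.K j f.1 e.2 - N.K j f.2 e.2)|) with hterm
  have hts : ∀ J, ∑ j ∈ range (2 * J), term j ≤ 2 * ∑ a ∈ range J, N.S u a + N.S u J / 2 := by
    intro J
    induction J with
    | zero => simpa using div_nonneg (N.S_nonneg u 0) zero_le_two
    | succ J ih =>
      rw [show 2 * (J + 1) = 2 * J + 1 + 1 by ring, Finset.sum_range_succ, Finset.sum_range_succ,
        Finset.sum_range_succ]
      have a1 : term (2 * J) ≤ (N.S u J + N.S u J) / 2 := by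
        rw [two_mul]; exact N.term_le u hu0 J J
      have a2 : term (2 * J + 1) ≤ (N.S u J + N.S u (J + 1)) / 2 := by
        rw [show 2 * J + 1 = J + (J + 1) by ring]; exact N.term_le u hu0 J (J + 1)
      linarith
  -- the increments
  have hinc : ∀ f j x, N.P^[j] (fun z => φ f z - N.P (φ f) z) x
      = N.ε / 2 * u f * (N.K j f.1 x - N.K j f.2 x) := by
    intro f j x
    have h := N.iter_sum (univ : Finset Bool)
      (fun b => if b then N.ε / 2 * u f else -(N.ε / 2 * u f))
      (fun b => if b then (fun x => if x = f.1 then 1 / N.μ f.1 else 0)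
        else (fun x => if x = f.2 then 1 / N.μ f.2 else 0)) j
    have h1 : (fun z => φ f z - N.P (φ f) z) = fun x => ∑ b : Bool,
        (if b then N.ε / 2 * u f else -(N.ε / 2 * u f)) *
        (if b then (fun x => if x = f.1 then 1 / N.μ f.1 else 0)
          else (fun x => if x = f.2 then 1 / N.μ f.2 else 0)) x := by
      funext z
      have h2 := hφ f z
      have h3 : ∑ y, N.c z y * (φ f z - φ f y)
          = u f / 2 * ((if z = f.1 then 1 else 0) - (if z = f.2 then 1 else 0)) := by linarith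
      simp only [P, h3, Fintype.univ_bool, mem_singleton, Bool.true_eq_false, not_false_eq_true,
        sum_insert, sum_singleton, if_true, Bool.false_eq_true, if_false]
      have hz := (N.μ0 z).ne'
      by_cases e1 : z = f.1 <;> by_cases e2 : z = f.2
      · rw [if_pos e1, if_pos e2, if_pos e1, if_pos e2, ← e1, ← e2]; ring
      · rw [if_pos e1, if_neg e2, if_pos e1, if_neg e2, ← e1]; field_simp; ring
      · rw [if_neg e1, if_pos e2, if_neg e1, if_pos e2, ← e2]; field_simp; ring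
      · rw [if_neg e1, if_neg e2, if_neg e1, if_neg e2]; ring
    rw [h1, h]
    simp only [Fintype.univ_bool, mem_singleton, Bool.true_eq_false, not_false_eq_true,
      sum_insert, sum_singleton, if_true, Bool.false_eq_true, if_false]
    unfold K; ring
  set M : ℝ := ∑ f : X × X, ∑ v, |φ f v| with hM
  have hM0 : 0 ≤ M := Finset.sum_nonneg fun f _ => Finset.sum_nonneg fun v _ => abs_nonneg _
  have hD0 : ∀ a v, 0 ≤ N.D u a v := fun a v =>
    Finset.sum_nonneg fun e _ => mul_nonneg (hu0 e) (abs_nonneg _)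
  -- main estimate for every `J`
  have hmain : ∀ J, ∑ f : X × X, ∑ e : X × X, u e * |φ f e.1 - φ f e.2|
      ≤ M * ∑ v, N.μ v * N.D u J v + N.ε / 2 * ∑ j ∈ range J, term j := by
    intro J
    have b1 : ∀ f e : X × X, |φ f e.1 - φ f e.2| ≤
        ∑ v, |φ f v| * (N.μ v * |N.K J v e.1 - N.K J v e.2|) + N.ε / 2 * ∑ j ∈ range J, u f *
          |(N.K j f.1 e.1 - N.K j f.2 e.1) - (N.K j f.1 e.2 - N.K j f.2 e.2)| := by
      intro f e
      have t1 := N.telescope (φ f) J e.1
      have t2 := N.telescope (φ f) J e.2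
      simp only [hinc] at t1 t2
      rw [N.iter_eq] at t1 t2
      have t3 : φ f e.1 - φ f e.2 = ∑ v, φ f v * (N.μ v * (N.K J v e.1 - N.K J v e.2))
          + ∑ j ∈ range J, N.ε / 2 * (u f * ((N.K j f.1 e.1 - N.K j f.2 e.1)
            - (N.K j f.1 e.2 - N.K j f.2 e.2))) := by
        have c1 : ∑ v, φ f v * (N.μ v * (N.K J v e.1 - N.K J v e.2))
            = ∑ v, N.μ v * φ f v * N.K J v e.1 - ∑ v, N.μ v * φ f v * N.K J v e.2 := by
          rw [← Finset.sum_sub_distrib]; exact Finset.sum_congr rfl fun v _ => by ring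
        have c2 : ∑ j ∈ range J, N.ε / 2 * (u f * ((N.K j f.1 e.1 - N.K j f.2 e.1)
            - (N.K j f.1 e.2 - N.K j f.2 e.2)))
            = ∑ j ∈ range J, N.ε / 2 * u f * (N.K j f.1 e.1 - N.K j f.2 e.1)
              - ∑ j ∈ range J, N.ε / 2 * u f * (N.K j f.1 e.2 - N.K j f.2 e.2) := by
          rw [← Finset.sum_sub_distrib]; exact Finset.sum_congr rfl fun v _ => by ring
        rw [c1, c2]; linarith
      rw [t3, Finset.mul_sum]
      refine (abs_add_le _ _).trans (add_le_add ?_ ?_)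
      · refine (Finset.abs_sum_le_sum_abs _ _).trans (Finset.sum_le_sum fun v _ => le_of_eq ?_)
        rw [abs_mul, abs_mul, abs_of_pos (N.μ0 v)]
      · refine (Finset.abs_sum_le_sum_abs _ _).trans (Finset.sum_le_sum fun v _ => le_of_eq ?_)
        rw [abs_mul, abs_mul, abs_of_pos (half_pos hε), abs_of_nonneg (hu0 f)]
    have b2 : ∑ f : X × X, ∑ e : X × X, u e *
        ∑ v, |φ f v| * (N.μ v * |N.K J v e.1 - N.K J v e.2|) ≤ M * ∑ v, N.μ v * N.D u J v := by
      rw [hM, Finset.sum_mul]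
      refine Finset.sum_le_sum fun f _ => ?_
      have : ∑ e : X × X, u e * ∑ v, |φ f v| * (N.μ v * |N.K J v e.1 - N.K J v e.2|)
          = ∑ v, |φ f v| * (N.μ v * N.D u J v) := by
        unfold D
        simp_rw [Finset.mul_sum]
        rw [Finset.sum_comm]
        exact Finset.sum_congr rfl fun v _ => Finset.sum_congr rfl fun e _ => by ring
      rw [this, Finset.mul_sum]
      refine Finset.sum_le_sum fun v _ => mul_le_mul_of_nonneg_right ?_
        (mul_nonneg (N.μ0 v).le (hD0 J v))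
      exact Finset.single_le_sum (f := fun v => |φ f v|) (fun v _ => abs_nonneg _) (mem_univ v)
    have b3 : ∑ f : X × X, ∑ e : X × X, u e * (N.ε / 2 * ∑ j ∈ range J, u f *
          |(N.K j f.1 e.1 - N.K j f.2 e.1) - (N.K j f.1 e.2 - N.K j f.2 e.2)|)
        = N.ε / 2 * ∑ j ∈ range J, term j := by
      simp only [hterm]
      simp_rw [Finset.mul_sum]
      rw [Finset.sum_comm (s := range J)]
      refine Finset.sum_congr rfl fun f _ => ?_
      rw [Finset.sum_comm (s := range J)]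
      exact Finset.sum_congr rfl fun e _ => Finset.sum_congr rfl fun j _ => by ring
    rw [← b3]
    refine le_trans ?_ (add_le_add_left b2 _)
    rw [← Finset.sum_add_distrib]
    refine Finset.sum_le_sum fun f _ => ?_
    rw [← Finset.sum_add_distrib]
    refine Finset.sum_le_sum fun e _ => ?_
    rw [← mul_add]
    exact mul_le_mul_of_nonneg_left (b1 f e) (hu0 e)
  -- choice of a good time
  have hgood : ∃ J, N.S u (2 * J) ≤ 1 / (M + 1) ^ 2 := by
    by_contra hcon
    push Not at hcon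
    have c1 : ∀ n : ℕ, n * (1 / (M + 1) ^ 2) ≤ ∑ a ∈ range (2 * n), N.S u a := by
      intro n
      induction n with
      | zero => simp
      | succ n ih =>
        rw [show 2 * (n + 1) = 2 * n + 1 + 1 by ring, Finset.sum_range_succ,
          Finset.sum_range_succ]
        have := hcon n
        have := N.S_nonneg u (2 * n + 1)
        push_cast
        linarith
    obtain ⟨n, hn⟩ := exists_nat_gt (8 * Real.log (Fintype.card X) / (N.ε * (1 / (M + 1) ^ 2)))
    rw [div_lt_iff₀ (by positivity)] at hn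
    have c2 := N.S_sum u π hπ0 hπs hμ hu0 hu (2 * n)
    have c3 := mul_le_mul_of_nonneg_left (c1 n) hε.le
    nlinarith
  obtain ⟨J, hJ⟩ := hgood
  have d1 := hmain (2 * J)
  have d2 := hts J
  have d3 := N.S_sum u π hπ0 hπs hμ hu0 hu (J + 1)
  rw [Finset.sum_range_succ] at d3
  have d4 : (M + 1) * ∑ v, N.μ v * N.D u (2 * J) v ≤ 1 := by
    have e1 : (M + 1) * ∑ v, N.μ v * N.D u (2 * J) v
        ≤ ∑ v, (N.μ v / 2 + (M + 1) ^ 2 / 2 * (N.μ v * N.D u (2 * J) v ^ 2)) := by
      rw [Finset.mul_sum]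
      refine Finset.sum_le_sum fun v _ => ?_
      nlinarith [mul_nonneg (N.μ0 v).le (sq_nonneg ((M + 1) * N.D u (2 * J) v - 1))]
    rw [Finset.sum_add_distrib, ← Finset.sum_div, N.μ1, ← Finset.mul_sum] at e1
    have e2 : (M + 1) ^ 2 * N.S u (2 * J) ≤ 1 := by
      rw [le_div_iff₀ (by positivity)] at hJ; linarith
    unfold S at e2
    linarith
  have d5 : 0 ≤ ∑ v, N.μ v * N.D u (2 * J) v :=
    Finset.sum_nonneg fun v _ => mul_nonneg (N.μ0 v).le (hD0 _ v)
  have d6 := mul_le_mul_of_nonneg_left d2 (half_pos hε).le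
  have d7 := mul_nonneg hε.le (N.S_nonneg u J)
  nlinarith

end Net

end Crest.Agent.DR
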