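import Crest.Agent.DR.Ineq

/-! Sums of rare independent signed jumps, and a sampling lemma. -/

set_option autoImplicit false
set_option linter.unusedSectionVars false
set_option linter.unusedVariables false
open Finset

namespace Crest.Agent.DR

/-- a finitely supported averaging functional -/
structure Mean (S : Type*) where
  E : (S → ℝ) → ℝ
  mono : ∀ {F G : S → ℝ}, (∀ s, F s ≤ G s) → E F ≤ E G
  add : ∀ F G : S → ℝ, E (fun s => F s + G s) = E F + E G
  smul : ∀ (a : ℝ) (F : S → ℝ), E (fun s => a * F s) = a * E F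
  one : E (fun _ => 1) = 1
  ex : ∀ F : S → ℝ, ∃ s, F s ≤ E F

namespace Mean
variable {S : Type*} (m : Mean S)

lemma const (a : ℝ) : m.E (fun _ => a) = a := by
  have := m.smul a (fun _ => 1)
  simpa [m.one] using this

lemma sum {ι : Type*} (s : Finset ι) (F : ι → S → ℝ) :
    m.E (fun x => ∑ i ∈ s, F i x) = ∑ i ∈ s, m.E (F i) := by
  classical
  induction s using Finset.induction_on with
  | empty => simp [m.const]
  | insert i s hi ih =>
    simp only [Finset.sum_insert hi]
    rw [m.add, ih]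

lemma nonneg {F : S → ℝ} (h : ∀ s, 0 ≤ F s) : 0 ≤ m.E F := by
  have := m.mono (F := fun _ => 0) h
  rwa [m.const] at this

lemma sub (F G : S → ℝ) : m.E (fun s => F s - G s) = m.E F - m.E G := by
  have h1 := m.add F (fun s => (-1) * G s)
  rw [m.smul] at h1
  have : (fun s => F s - G s) = fun s => F s + (-1) * G s := by funext s; ring
  rw [this, h1]; ring

lemma sample_exp {I : Type*} [Fintype I] (Y : I → S → ℝ) (t R : ℝ) (ht : 0 ≤ t) (htR : t * R ≤ 1)
    (hY : ∀ i s, |Y i s| ≤ R) (hE : ∀ i, m.E (Y i) = 0) (d : ℕ) :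
    ∃ s : Fin d → S, ∑ i, Real.exp (t * ∑ l, Y i (s l))
      ≤ Fintype.card I * Real.exp (d * (t * R) ^ 2) := by
  induction d with
  | zero => exact ⟨fun l => l.elim0, by simp⟩
  | succ d ih =>
    obtain ⟨s, hs⟩ := ih
    obtain ⟨x, hx⟩ := m.ex (fun x => ∑ i, Real.exp (t * ∑ l, Y i (s l)) * Real.exp (t * Y i x))
    refine ⟨Fin.cons x s, ?_⟩
    have h1 : ∀ i, m.E (fun x => Real.exp (t * Y i x)) ≤ Real.exp ((t * R) ^ 2) := by
      intro i
      have h2 : m.E (fun x => Real.exp (t * Y i x)) ≤ m.E (fun x => (1 + (t * R) ^ 2) + t * Y i x) := by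
        refine m.mono fun x => ?_
        have h3 : |t * Y i x| ≤ t * R := by
          rw [abs_mul, abs_of_nonneg ht]; exact mul_le_mul_of_nonneg_left (hY i x) ht
        have h4 := (abs_le.1 (Real.abs_exp_sub_one_sub_id_le (h3.trans htR))).2
        have h5 : (t * Y i x) ^ 2 ≤ (t * R) ^ 2 := by
          rw [← sq_abs]; exact pow_le_pow_left₀ (abs_nonneg _) h3 2
        linarith
      rw [m.add, m.smul, m.const, hE] at h2
      have := Real.add_one_le_exp ((t * R) ^ 2)
      linarith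
    rw [m.sum] at hx
    simp only [m.smul] at hx
    have h6 : ∑ i, Real.exp (t * ∑ l, Y i (s l)) * m.E (fun x => Real.exp (t * Y i x))
        ≤ (∑ i, Real.exp (t * ∑ l, Y i (s l))) * Real.exp ((t * R) ^ 2) := by
      rw [Finset.sum_mul]
      exact Finset.sum_le_sum fun i _ => mul_le_mul_of_nonneg_left (h1 i) (Real.exp_pos _).le
    have h7 := mul_le_mul_of_nonneg_right hs (Real.exp_pos ((t * R) ^ 2)).le
    have h8 : ∑ i, Real.exp (t * ∑ l, Y i ((Fin.cons x s : Fin (d + 1) → S) l))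
        = ∑ i, Real.exp (t * ∑ l, Y i (s l)) * Real.exp (t * Y i x) := by
      refine Finset.sum_congr rfl fun i _ => ?_
      rw [Fin.sum_univ_succ, ← Real.exp_add]
      simp only [Fin.cons_zero, Fin.cons_succ]
      congr 1; ring
    rw [h8]
    refine hx.trans (h6.trans (h7.trans (le_of_eq ?_)))
    rw [mul_assoc, ← Real.exp_add]
    push_cast
    congr 2; ring

lemma sample {I : Type*} [Fintype I] (W : I → S → ℝ) (R δ : ℝ) (hδ : 0 < δ) (hR : δ ≤ R)
    (hW0 : ∀ i s, 0 ≤ W i s) (hWR : ∀ i s, W i s ≤ R) (d : ℕ)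
    (hd : 4 * R ^ 2 * Real.log (2 * Fintype.card I) ≤ d * δ ^ 2) :
    ∃ s : Fin d → S, ∀ i, |∑ l, W i (s l) - d * m.E (W i)| ≤ d * δ := by
  have hR0 : 0 < R := by linarith
  have hE0 : ∀ i, 0 ≤ m.E (W i) := fun i => m.nonneg (hW0 i)
  have hER : ∀ i, m.E (W i) ≤ R := fun i => by
    have := m.mono (G := fun _ => R) (hWR i)
    rwa [m.const] at this
  set t := δ / (2 * R ^ 2) with ht
  have ht0 : 0 < t := by positivity
  have htR : t * R = δ / (2 * R) := by rw [ht]; field_simp
  obtain ⟨s, hs⟩ := m.sample_exp (I := I ⊕ I)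
    (Sum.elim (fun i x => W i x - m.E (W i)) (fun i x => m.E (W i) - W i x)) t R ht0.le
    (by rw [htR, div_le_one (by positivity)]; linarith)
    (by
      rintro (i | i) x <;> simp only [Sum.elim_inl, Sum.elim_inr] <;> rw [abs_le] <;>
        constructor <;> linarith [hW0 i x, hWR i x, hE0 i, hER i])
    (by
      rintro (i | i) <;> simp only [Sum.elim_inl, Sum.elim_inr] <;> rw [m.sub, m.const, sub_self])
    d
  refine ⟨s, fun i => ?_⟩
  have hI : (0 : ℝ) < Fintype.card I := by
    have : Nonempty I := ⟨i⟩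
    exact_mod_cast Fintype.card_pos
  have key : ∀ j : I ⊕ I, ∑ l, (Sum.elim (fun i x => W i x - m.E (W i))
      (fun i x => m.E (W i) - W i x) j) (s l) ≤ d * δ := by
    intro j
    have h1 := (Finset.single_le_sum (f := fun j : I ⊕ I => Real.exp (t * ∑ l,
      (Sum.elim (fun i x => W i x - m.E (W i)) (fun i x => m.E (W i) - W i x) j) (s l)))
      (fun j _ => (Real.exp_pos _).le) (mem_univ j)).trans hs
    rw [Fintype.card_sum, show ((Fintype.card I + Fintype.card I : ℕ) : ℝ)
      = Real.exp (Real.log (2 * Fintype.card I)) by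
        rw [Real.exp_log (by positivity)]; push_cast; ring, ← Real.exp_add, Real.exp_le_exp,
      htR] at h1
    have h2 : Real.log (2 * Fintype.card I) ≤ d * (δ / (2 * R)) ^ 2 := by
      rw [div_pow, ← mul_div_assoc, le_div_iff₀ (by positivity)]; linarith
    have h3 : t * (d * δ) = 2 * (d * (δ / (2 * R)) ^ 2) := by rw [ht]; field_simp
    exact le_of_mul_le_mul_left (by linarith) ht0
  have k1 := key (Sum.inl i)
  have k2 := key (Sum.inr i)
  simp only [Sum.elim_inl, Sum.elim_inr, Finset.sum_sub_distrib, Finset.sum_const,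
    Finset.card_univ, Fintype.card_fin, nsmul_eq_mul] at k1 k2
  rw [abs_le]; constructor <;> linarith

end Mean

variable {Θ : Type*} [Fintype Θ] [DecidableEq Θ]

noncomputable def St (q : Θ → ℝ) (F : (Θ → ℝ) → ℝ) (c : Θ → ℝ) : ℝ :=
  (1 - ∑ θ, q θ) * F c + ∑ θ, q θ * ((F (c + Pi.single θ 1) + F (c - Pi.single θ 1)) / 2)

lemma St_mono {q : Θ → ℝ} (hq : ∀ θ, 0 ≤ q θ) (hq1 : ∑ θ, q θ ≤ 1) {F G : (Θ → ℝ) → ℝ}
    (h : ∀ c, F c ≤ G c) (c : Θ → ℝ) : St q F c ≤ St q G c :=
  add_le_add (mul_le_mul_of_nonneg_left (h c) (by linarith))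
    (Finset.sum_le_sum fun θ _ => mul_le_mul_of_nonneg_left
      (by linarith [h (c + Pi.single θ 1), h (c - Pi.single θ 1)]) (hq θ))

lemma St_add (q : Θ → ℝ) (F G : (Θ → ℝ) → ℝ) :
    St q (fun s => F s + G s) = fun c => St q F c + St q G c := by
  funext c
  unfold St
  rw [add_add_add_comm, ← Finset.sum_add_distrib]
  congr 1
  · ring
  · exact Finset.sum_congr rfl fun θ _ => by ring

lemma St_smul (q : Θ → ℝ) (a : ℝ) (F : (Θ → ℝ) → ℝ) :
    St q (fun s => a * F s) = fun c => a * St q F c := by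
  funext c
  unfold St
  rw [mul_add, Finset.mul_sum]
  congr 1
  · ring
  · exact Finset.sum_congr rfl fun θ _ => by ring

lemma St_one (q : Θ → ℝ) : St q (fun _ => 1) = fun _ => 1 := by
  funext c; simp [St]

lemma St_ex {q : Θ → ℝ} (hq : ∀ θ, 0 ≤ q θ) (hq1 : ∑ θ, q θ ≤ 1) (F : (Θ → ℝ) → ℝ) (c : Θ → ℝ) :
    ∃ c', F c' ≤ St q F c := by
  let pt : Option (Θ ⊕ Θ) → (Θ → ℝ) := fun o => o.elim c
    (Sum.elim (fun θ => c + Pi.single θ 1) (fun θ => c - Pi.single θ 1))
  obtain ⟨o, ho⟩ := Finite.exists_min (fun o => F (pt o))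
  refine ⟨pt o, ?_⟩
  have h0 : F (pt o) ≤ F c := ho none
  have h1 : ∀ θ, F (pt o) ≤ F (c + Pi.single θ 1) := fun θ => ho (some (Sum.inl θ))
  have h2 : ∀ θ, F (pt o) ≤ F (c - Pi.single θ 1) := fun θ => ho (some (Sum.inr θ))
  have h3 : F (pt o) = (1 - ∑ θ, q θ) * F (pt o) + ∑ θ, q θ * F (pt o) := by
    rw [← Finset.sum_mul]; ring
  rw [h3]
  exact add_le_add (mul_le_mul_of_nonneg_left h0 (by linarith))
    (Finset.sum_le_sum fun θ _ => mul_le_mul_of_nonneg_left (by linarith [h1 θ, h2 θ]) (hq θ))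

noncomputable def EE (q : Θ → ℝ) : ℕ → ((Θ → ℝ) → ℝ) → ℝ
  | 0, F => F 0
  | M + 1, F => EE q M (St q F)

noncomputable def mean (q : Θ → ℝ) (hq : ∀ θ, 0 ≤ q θ) (hq1 : ∑ θ, q θ ≤ 1) (M : ℕ) :
    Mean (Θ → ℝ) where
  E := EE q M
  mono := by
    induction M with
    | zero => intro F G h; exact h 0
    | succ M ih => intro F G h; exact ih (St_mono hq hq1 h)
  add := by
    induction M with
    | zero => intro F G; rfl
    | succ M ih => intro F G; simp only [EE]; rw [St_add, ih]
  smul := by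
    induction M with
    | zero => intro a F; rfl
    | succ M ih => intro a F; simp only [EE]; rw [St_smul, ih]
  one := by
    induction M with
    | zero => rfl
    | succ M ih => simp only [EE]; rw [St_one, ih]
  ex := by
    induction M with
    | zero => intro F; exact ⟨0, le_rfl⟩
    | succ M ih =>
      intro F
      obtain ⟨c, hc⟩ := ih (St q F)
      obtain ⟨c', hc'⟩ := St_ex hq hq1 F c
      exact ⟨c', hc'.trans hc⟩

def lin (a c : Θ → ℝ) : ℝ := ∑ θ, c θ * a θ

lemma lin_zero (a : Θ → ℝ) : lin a 0 = 0 := by simp [lin]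

lemma lin_add (a c : Θ → ℝ) (θ : Θ) : lin a (c + Pi.single θ 1) = lin a c + a θ := by
  simp [lin, add_mul, Finset.sum_add_distrib, Pi.single_apply]

lemma lin_sub (a c : Θ → ℝ) (θ : Θ) : lin a (c - Pi.single θ 1) = lin a c - a θ := by
  simp [lin, sub_mul, Finset.sum_sub_distrib, Pi.single_apply]

section
variable {q : Θ → ℝ} (hq : ∀ θ, 0 ≤ q θ) (hq1 : ∑ θ, q θ ≤ 1)
include hq hq1

lemma mean_succ (M : ℕ) (F : (Θ → ℝ) → ℝ) :
    (mean q hq hq1 (M + 1)).E F = (mean q hq hq1 M).E (St q F) := rfl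

lemma St_lin (a : Θ → ℝ) (f : ℝ → ℝ) (c : Θ → ℝ) :
    St q (fun c => f (lin a c)) c = f (lin a c)
      + ∑ θ, q θ * ((f (lin a c + a θ) + f (lin a c - a θ)) / 2 - f (lin a c)) := by
  unfold St
  simp only [lin_add, lin_sub, mul_sub, Finset.sum_sub_distrib, ← Finset.sum_mul]
  ring

lemma mean_cosh (a : Θ → ℝ) (M : ℕ) :
    (mean q hq hq1 M).E (fun c => Real.cosh (lin a c))
      ≤ Real.exp (M * ∑ θ, q θ * (Real.cosh (a θ) - 1)) := by
  induction M with
  | zero => simp [mean, EE, lin_zero]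
  | succ M ih =>
    rw [mean_succ]
    set A := ∑ θ, q θ * (Real.cosh (a θ) - 1) with hA
    have hA0 : 0 ≤ A := Finset.sum_nonneg fun θ _ =>
      mul_nonneg (hq θ) (by linarith [Real.one_le_cosh (a θ)])
    have h1 : St q (fun c => Real.cosh (lin a c)) = fun c => (1 + A) * Real.cosh (lin a c) := by
      funext c
      rw [St_lin hq hq1, add_mul, one_mul, hA, Finset.sum_mul]
      congr 1
      refine Finset.sum_congr rfl fun θ _ => ?_
      rw [Real.cosh_add, Real.cosh_sub]; ring
    rw [h1, Mean.smul]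
    have h2 : 1 + A ≤ Real.exp A := by linarith [Real.add_one_le_exp A]
    have h3 := mul_le_mul h2 ih (Mean.nonneg _ fun c => (Real.cosh_pos _).le) (Real.exp_pos _).le
    refine h3.trans (le_of_eq ?_)
    rw [← Real.exp_add]; push_cast; congr 1; ring

lemma mean_sub {p : ℝ} (hp0 : 0 < p) (hp : p ≤ 2) (a : Θ → ℝ) (M : ℕ) :
    (mean q hq hq1 M).E (fun c => |lin a c| ^ p) ≤ M * ∑ θ, q θ * |a θ| ^ p := by
  induction M with
  | zero => simp [mean, EE, lin_zero, Real.zero_rpow hp0.ne']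
  | succ M ih =>
    rw [mean_succ]
    have h1 : (mean q hq hq1 M).E (St q (fun c => |lin a c| ^ p))
        ≤ (mean q hq hq1 M).E (fun c => |lin a c| ^ p + ∑ θ, q θ * |a θ| ^ p) := by
      refine Mean.mono _ fun c => ?_
      rw [St_lin hq hq1 a (fun x => |x| ^ p)]
      refine add_le_add le_rfl (Finset.sum_le_sum fun θ _ => mul_le_mul_of_nonneg_left ?_ (hq θ))
      linarith [sym_sub hp0.le hp (lin a c) (a θ)]
    rw [Mean.add, Mean.const] at h1
    push_cast
    linarith

lemma mean_ne (a : Θ → ℝ) (M : ℕ) :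
    (mean q hq hq1 M).E (fun c => if lin a c = 0 then 0 else 1)
      ≤ M * ∑ θ, q θ * (if a θ = 0 then 0 else 1) := by
  induction M with
  | zero => simp [mean, EE, lin_zero]
  | succ M ih =>
    rw [mean_succ]
    have h1 : (mean q hq hq1 M).E (St q (fun c => if lin a c = 0 then 0 else 1))
        ≤ (mean q hq hq1 M).E (fun c => (if lin a c = 0 then 0 else 1)
          + ∑ θ, q θ * (if a θ = 0 then 0 else 1)) := by
      refine Mean.mono _ fun c => ?_
      rw [St_lin hq hq1 a (fun x => if x = 0 then 0 else 1)]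
      refine add_le_add le_rfl (Finset.sum_le_sum fun θ _ => mul_le_mul_of_nonneg_left ?_ (hq θ))
      by_cases h : a θ = 0
      · simp [h]
      · rw [if_neg h]; split_ifs <;> norm_num
    rw [Mean.add, Mean.const] at h1
    push_cast
    linarith

lemma mean_lower {p : ℝ} (hp : 1 ≤ p) (a : Θ → ℝ) (M0 : ℕ) (x : ℝ)
    (hx : M0 * ∑ θ, q θ * (if a θ = 0 then 0 else 1) ≤ x) :
    M0 * (∑ θ, q θ * |a θ| ^ p) * (1 - x) ≤ (mean q hq hq1 M0).E (fun c => |lin a c| ^ p) := by
  have hp0 : 0 < p := by linarith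
  set α := ∑ θ, q θ * |a θ| ^ p with hα
  have hα0 : 0 ≤ α := Finset.sum_nonneg fun θ _ =>
    mul_nonneg (hq θ) (Real.rpow_nonneg (abs_nonneg _) _)
  have hρ0 : 0 ≤ ∑ θ, q θ * (if a θ = 0 then (0 : ℝ) else 1) :=
    Finset.sum_nonneg fun θ _ => mul_nonneg (hq θ) (by split_ifs <;> norm_num)
  have key : ∀ M ≤ M0, M * α * (1 - x) ≤ (mean q hq hq1 M).E (fun c => |lin a c| ^ p) := by
    intro M
    induction M with
    | zero => intro _; simp [mean, EE, lin_zero, Real.zero_rpow hp0.ne']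
    | succ M ih =>
      intro hM
      have ih' := ih (by omega)
      rw [mean_succ]
      have h1 : (mean q hq hq1 M).E (fun c => |lin a c| ^ p
            + (α + (-α) * (if lin a c = 0 then 0 else 1)))
          ≤ (mean q hq hq1 M).E (St q (fun c => |lin a c| ^ p)) := by
        refine Mean.mono _ fun c => ?_
        rw [St_lin hq hq1 a (fun x => |x| ^ p)]
        refine add_le_add le_rfl ?_
        by_cases h : lin a c = 0
        · rw [h]; simp [Real.zero_rpow hp0.ne', hα]
        · rw [if_neg h]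
          simp only [mul_one, add_neg_cancel]
          exact Finset.sum_nonneg fun θ _ => mul_nonneg (hq θ)
            (by linarith [sym_lower hp (lin a c) (a θ)])
      rw [Mean.add, Mean.add, Mean.const, Mean.smul] at h1
      have h2 := mean_ne hq hq1 a M
      have h3 : (M : ℝ) ≤ M0 := by exact_mod_cast (show M ≤ M0 by omega)
      have h4 := mul_le_mul_of_nonneg_right h3 hρ0
      have h5 : (mean q hq hq1 M).E (fun c => if lin a c = 0 then 0 else 1) ≤ x := by linarith
      have h6 := mul_le_mul_of_nonneg_left h5 hα0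
      push_cast
      linarith
  exact key M0 le_rfl

lemma mean_upper {p : ℝ} (hp : 1 ≤ p) (a : Θ → ℝ) (M0 : ℕ) (x : ℝ)
    (hx : M0 * ∑ θ, q θ * (if a θ = 0 then 0 else 1) ≤ x) :
    (mean q hq hq1 M0).E (fun c => |lin a c| ^ p)
      ≤ M0 * (∑ θ, q θ * |a θ| ^ p) * ((1 + 2 ^ p * x) * Real.exp (2 ^ p * x)) := by
  have hp0 : 0 < p := by linarith
  set α := ∑ θ, q θ * |a θ| ^ p with hα
  set r := ∑ θ, q θ * (if a θ = 0 then (0 : ℝ) else 1) with hr
  have hα0 : 0 ≤ α := Finset.sum_nonneg fun θ _ =>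
    mul_nonneg (hq θ) (Real.rpow_nonneg (abs_nonneg _) _)
  have hρ0 : 0 ≤ r :=
    Finset.sum_nonneg fun θ _ => mul_nonneg (hq θ) (by split_ifs <;> norm_num)
  have h2p : (0 : ℝ) < 2 ^ p := Real.rpow_pos_of_pos two_pos _
  have hx0 : 0 ≤ x := le_trans (by positivity) hx
  have key : ∀ M ≤ M0, (mean q hq hq1 M).E (fun c => |lin a c| ^ p)
      ≤ M * α * (1 + 2 ^ p * x) * Real.exp (M * (2 ^ p * r)) := by
    intro M
    induction M with
    | zero => intro _; simp [mean, EE, lin_zero, Real.zero_rpow hp0.ne']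
    | succ M ih =>
      intro hM
      have ih' := ih (by omega)
      rw [mean_succ]
      have h1 : (mean q hq hq1 M).E (St q (fun c => |lin a c| ^ p))
          ≤ (mean q hq hq1 M).E (fun c => (1 + 2 ^ p * r) * |lin a c| ^ p
            + (α + (2 ^ p * α) * (if lin a c = 0 then 0 else 1))) := by
        refine Mean.mono _ fun c => ?_
        rw [St_lin hq hq1 a (fun x => |x| ^ p)]
        by_cases h : lin a c = 0
        · rw [h]; simp [Real.zero_rpow hp0.ne', hα]
        · rw [if_neg h]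
          have h0 : 0 ≤ |lin a c| ^ p := Real.rpow_nonneg (abs_nonneg _) _
          have : ∑ θ, q θ * ((|lin a c + a θ| ^ p + |lin a c - a θ| ^ p) / 2 - |lin a c| ^ p)
              ≤ ∑ θ, (2 ^ p * |lin a c| ^ p * (q θ * (if a θ = 0 then (0 : ℝ) else 1))
                + 2 ^ p * (q θ * |a θ| ^ p)) := by
            refine Finset.sum_le_sum fun θ _ => ?_
            by_cases h' : a θ = 0
            · simp [h', Real.zero_rpow hp0.ne']
            · rw [if_neg h']
              have := mul_le_mul_of_nonneg_left (sym_upper hp (lin a c) (a θ)) (hq θ)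
              have := mul_nonneg (hq θ) h0
              nlinarith
          rw [Finset.sum_add_distrib, ← Finset.mul_sum, ← Finset.mul_sum] at this
          linarith
      rw [Mean.add, Mean.add, Mean.const, Mean.smul, Mean.smul] at h1
      have h2 := mean_ne hq hq1 a M
      have h3 : (M : ℝ) ≤ M0 := by exact_mod_cast (show M ≤ M0 by omega)
      have h4 := mul_le_mul_of_nonneg_right h3 hρ0
      have h5 : (mean q hq hq1 M).E (fun c => if lin a c = 0 then 0 else 1) ≤ x := by linarith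
      have h6 := mul_le_mul_of_nonneg_left h5 (mul_nonneg h2p.le hα0)
      have h7 : 1 + 2 ^ p * r ≤ Real.exp (2 ^ p * r) := by
        linarith [Real.add_one_le_exp (2 ^ p * r)]
      have h8 := mul_le_mul h7 ih' (Mean.nonneg _ fun c => Real.rpow_nonneg (abs_nonneg _) _)
        (Real.exp_pos _).le
      have h9 : Real.exp (((M + 1 : ℕ) : ℝ) * (2 ^ p * r))
          = Real.exp (2 ^ p * r) * Real.exp (M * (2 ^ p * r)) := by
        rw [← Real.exp_add]; push_cast; congr 1; ring
      have h10 : 1 ≤ Real.exp (((M + 1 : ℕ) : ℝ) * (2 ^ p * r)) :=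
        Real.one_le_exp (by positivity)
      have h11 := mul_le_mul_of_nonneg_left h10 (show 0 ≤ α * (1 + 2 ^ p * x) by positivity)
      rw [h9] at *
      push_cast
      nlinarith
  refine (key M0 le_rfl).trans ?_
  have h1 := mul_le_mul_of_nonneg_left hx h2p.le
  have h2 : Real.exp (M0 * (2 ^ p * r)) ≤ Real.exp (2 ^ p * x) := Real.exp_le_exp.2 (by linarith)
  have h3 := mul_le_mul_of_nonneg_left h2 (show 0 ≤ M0 * α * (1 + 2 ^ p * x) by positivity)
  linarith

end

end Crest.Agent.DR
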