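import Mathlib

set_option autoImplicit false
open Finset

namespace Crest.Agent.DR

/-- A finite-dimensional minimax principle. -/
theorem minimax {I : Type*} [Fintype I] [Nonempty I] (K : Set (I → ℝ)) (hK : Convex ℝ K)
    (h : ∀ w : I → ℝ, (∀ i, 0 ≤ w i) → ∑ i, w i = 1 → ∃ y ∈ K, ∑ i, w i * y i ≤ 1) :
    ∃ y ∈ K, ∀ i, y i < 2 := by
  classical
  by_contra hcon
  push Not at hcon
  set Q : Set (I → ℝ) := {y | ∀ i, y i < 2} with hQ
  have hQc : Convex ℝ Q := by
    intro x hx y hy a b ha hb hab i
    have h1 := hx i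
    have h2 := hy i
    simp only [Pi.add_apply, Pi.smul_apply, smul_eq_mul]
    rcases ha.eq_or_lt with h0 | h0
    · have : b = 1 := by linarith
      rw [← h0, this]; linarith
    · nlinarith [mul_nonneg hb (sub_nonneg.2 h2.le), mul_pos h0 (sub_pos.2 h1)]
  have hQo : IsOpen Q := by
    have : Q = ⋂ i, {y : I → ℝ | y i < 2} := by ext y; simp [hQ]
    rw [this]
    exact isOpen_iInter_of_finite fun i => isOpen_lt (continuous_apply i) continuous_const
  have hdis : Disjoint Q K := by
    rw [Set.disjoint_left]
    intro y hy hyK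
    obtain ⟨i, hi⟩ := hcon y hyK
    exact absurd (hy i) (not_lt.2 hi)
  obtain ⟨f, u, hf1, hf2⟩ := geometric_hahn_banach_open hQc hQo hK hdis
  set w : I → ℝ := fun i => f (Pi.single i 1) with hw
  have hf : ∀ y : I → ℝ, f y = ∑ i, w i * y i := by
    intro y
    have : y = ∑ i, y i • (Pi.single i 1 : I → ℝ) := by
      ext j; simp [Finset.sum_apply, Pi.single_apply]
    conv_lhs => rw [this]
    rw [map_sum]
    exact Finset.sum_congr rfl fun i _ => by rw [map_smul, smul_eq_mul, mul_comm]
  have hw0 : ∀ i, 0 ≤ w i := by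
    intro i
    by_contra hneg
    push Not at hneg
    set t : ℝ := (|u| + 1) / (-w i) with ht
    have htpos : 0 < t := div_pos (by positivity) (by linarith)
    have hmem : (-t) • (Pi.single i 1 : I → ℝ) ∈ Q := by
      intro j
      by_cases hj : j = i
      · subst hj; simp; linarith
      · simp [hj]
    have h1 := hf1 _ hmem
    rw [map_smul, smul_eq_mul] at h1
    have h2 : -t * f (Pi.single i 1) = |u| + 1 := by
      have : f (Pi.single i 1) = w i := rfl
      rw [this, ht]; field_simp [hneg.ne]
    have := le_abs_self u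
    linarith
  set S := ∑ i, w i with hS
  have hS0 : 0 ≤ S := Finset.sum_nonneg fun i _ => hw0 i
  have h32 : (3 / 2) * S < u := by
    have := hf1 (fun _ => 3 / 2) (fun i => by norm_num)
    rw [hf, ← Finset.sum_mul] at this
    linarith
  rcases hS0.eq_or_lt with h0 | h0
  · have hz : ∀ i, w i = 0 := by
      intro i
      exact (Finset.sum_eq_zero_iff_of_nonneg (fun i _ => hw0 i)).1 h0.symm i (mem_univ i)
    obtain ⟨y, hy, -⟩ := h (fun _ => 1 / (Fintype.card I : ℝ)) (fun _ => by positivity) (by
      have : (0 : ℝ) < Fintype.card I := by exact_mod_cast Fintype.card_pos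
      simp)
    have := hf2 y hy
    rw [hf] at this
    simp [hz] at this
    linarith
  · obtain ⟨y, hy, hy1⟩ := h (fun i => w i / S) (fun i => div_nonneg (hw0 i) hS0) (by
      rw [← Finset.sum_div]; exact div_self h0.ne')
    have h2 := hf2 y hy
    rw [hf] at h2
    have h3 : ∑ i, w i / S * y i = (∑ i, w i * y i) / S := by
      rw [Finset.sum_div]; exact Finset.sum_congr rfl fun i _ => by ring
    rw [h3, div_le_one h0] at hy1
    linarith

end Crest.Agent.DR
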