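import Crest.Agent.DR.Local
import Crest.Agent.DR.Minimax

/-! A linear projection onto gradients with small row sums and small `L²` error. -/

set_option autoImplicit false
set_option linter.unusedSectionVars false
set_option linter.unusedVariables false
open Finset

namespace Crest.Agent.DR

variable {X : Type*} [Fintype X] [DecidableEq X]

/-- slope of a function along an ordered pair -/
noncomputable def sl (ρ : X × X → ℝ) (g : X → ℝ) (e : X × X) : ℝ := (g e.1 - g e.2) / ρ e

/-- the operator with potentials `φ` -/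
noncomputable def T (ρ : X × X → ℝ) (φ : X × X → X → ℝ) (τ : X × X → ℝ) (e : X × X) : ℝ :=
  ∑ f, τ f * sl ρ (φ f) e

noncomputable def row (ρ : X × X → ℝ) (φ : X × X → X → ℝ) (e : X × X) : ℝ :=
  ∑ f, |sl ρ (φ f) e|

def Adm (ρ : X × X → ℝ) (φ : X × X → X → ℝ) : Prop :=
  ∀ h e, T ρ φ (sl ρ h) e = sl ρ h e

lemma sl_sum {ι : Type*} (ρ : X × X → ℝ) (s : Finset ι) (a : ι → ℝ) (g : ι → X → ℝ) (e : X × X) :
    sl ρ (fun x => ∑ i ∈ s, a i * g i x) e = ∑ i ∈ s, a i * sl ρ (g i) e := by
  unfold sl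
  rw [← Finset.sum_sub_distrib, Finset.sum_div]
  exact Finset.sum_congr rfl fun i _ => by ring

lemma T_eq (ρ : X × X → ℝ) (φ : X × X → X → ℝ) (τ : X × X → ℝ) (e : X × X) :
    T ρ φ τ e = sl ρ (fun x => ∑ f, τ f * φ f x) e := by
  rw [sl_sum]; rfl

lemma exists_orth (ρ π : X × X → ℝ) (hπ : ∀ e, 0 ≤ π e) (τ : X × X → ℝ) :
    ∃ g : X → ℝ, ∀ g' : X → ℝ, ∑ e, π e * ((τ e - sl ρ g e) * sl ρ g' e) = 0 := by
  let B : (X → ℝ) →ₗ[ℝ] EuclideanSpace ℝ (X × X) :=
    { toFun := fun g => WithLp.toLp 2 (fun e => √(π e) * sl ρ g e)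
      map_add' := fun g g' => by
        ext e; simp [sl]; ring
      map_smul' := fun a g => by
        ext e; simp [sl]; ring }
  obtain ⟨y, hy, z, hz, hyz⟩ := Submodule.exists_add_mem_mem_orthogonal (K := LinearMap.range B)
    (WithLp.toLp 2 (fun e => √(π e) * τ e))
  obtain ⟨g, rfl⟩ := hy
  refine ⟨g, fun g' => ?_⟩
  have h := (Submodule.mem_orthogonal _ _).1 hz (B g') ⟨g', rfl⟩
  rw [PiLp.inner_apply] at h
  rw [← h]
  refine Finset.sum_congr rfl fun e _ => ?_
  have h1 : z e = √(π e) * τ e - √(π e) * sl ρ g e := by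
    have := congrArg (fun v : EuclideanSpace ℝ (X × X) => v e) hyz
    simp [B] at this
    linarith
  have h2 : (B g') e = √(π e) * sl ρ g' e := rfl
  rw [h1, h2]
  simp only [RCLike.inner_apply, conj_trivial]
  have := Real.mul_self_sqrt (hπ e)
  conv_lhs => rw [← this]
  ring

theorem elec [Nonempty X] (ρ π : X × X → ℝ) (hρ : ∀ e, 0 ≤ ρ e) (hρs : ∀ x y, ρ (x, y) = ρ (y, x))
    (hπ : ∀ e, 0 < π e) (hπs : ∀ x y, π (x, y) = π (y, x)) (hπ1 : ∑ e, π e = 1) :
    ∃ φ, Adm ρ φ ∧ ∑ e, π e * row ρ φ e ≤ 8 * Real.log (Fintype.card X) + 1 ∧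
      ∀ τ : X × X → ℝ, ∑ e, π e * (τ e - T ρ φ τ e) ^ 2 ≤ ∑ e, π e * τ e ^ 2 := by
  choose φ hφ using fun f : X × X =>
    exists_orth ρ π (fun e => (hπ e).le) (fun e => if e = f then 1 else 0)
  have horth : ∀ (τ : X × X → ℝ) (g' : X → ℝ),
      ∑ e, π e * ((τ e - T ρ φ τ e) * sl ρ g' e) = 0 := by
    intro τ g'
    have : ∑ e, π e * ((τ e - T ρ φ τ e) * sl ρ g' e)
        = ∑ f, τ f * ∑ e, π e * (((if e = f then 1 else 0) - sl ρ (φ f) e) * sl ρ g' e) := by
      simp_rw [Finset.mul_sum]
      rw [Finset.sum_comm]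
      refine Finset.sum_congr rfl fun e _ => ?_
      have h1 : τ e = ∑ f, τ f * (if e = f then 1 else 0) := by simp
      unfold T
      conv_lhs => rw [h1]
      rw [← Finset.sum_sub_distrib, Finset.sum_mul, Finset.mul_sum]
      exact Finset.sum_congr rfl fun f _ => by ring
    rw [this]
    simp [hφ]
  refine ⟨φ, ?_, ?_, ?_⟩
  · intro h e
    have h1 := horth (sl ρ h) (fun x => h x - ∑ f, sl ρ h f * φ f x)
    have h2 : ∀ e, sl ρ (fun x => h x - ∑ f, sl ρ h f * φ f x) e
        = sl ρ h e - T ρ φ (sl ρ h) e := by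
      intro e; rw [T_eq]; unfold sl; ring
    simp_rw [h2] at h1
    have h3 := (Finset.sum_eq_zero_iff_of_nonneg
      (fun e _ => mul_nonneg (hπ e).le (mul_self_nonneg _))).1 h1 e (mem_univ e)
    rcases mul_eq_zero.1 h3 with h4 | h4
    · exact absurd h4 (hπ e).ne'
    · have := mul_self_eq_zero.1 h4
      linarith
  · set c : X → X → ℝ := fun x y => π (x, y) / ρ (x, y) ^ 2 with hc
    set μ : X → ℝ := fun x => ∑ y, π (x, y) with hμ
    have hμ0 : ∀ x, 0 < μ x := fun x => Finset.sum_pos (fun y _ => hπ _) Finset.univ_nonempty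
    have hc0 : ∀ x y, 0 ≤ c x y := fun x y => div_nonneg (hπ _).le (sq_nonneg _)
    set A : ℝ := ∑ x, 2 * (∑ y, c x y) / μ x with hA
    have hA0 : ∀ x, 0 ≤ 2 * (∑ y, c x y) / μ x := fun x =>
      div_nonneg (mul_nonneg zero_le_two (Finset.sum_nonneg fun y _ => hc0 x y)) (hμ0 x).le
    have hA1 : 0 ≤ A := Finset.sum_nonneg fun x _ => hA0 x
    let N : Net X :=
      { c := c, μ := μ, ε := 1 / (A + 1), c0 := hc0
        csymm := fun x y => by simp only [hc, hρs x y, hπs x y]
        μ0 := hμ0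
        μ1 := by rw [← hπ1, Fintype.sum_prod_type]
        ε0 := by positivity
        small := fun x => by
          have h1 : 2 * (∑ y, c x y) / μ x ≤ A :=
            Finset.single_le_sum (f := fun x => 2 * (∑ y, c x y) / μ x) (fun x _ => hA0 x)
              (mem_univ x)
          rw [div_le_iff₀ (hμ0 x)] at h1
          rw [div_mul_eq_mul_div, div_le_iff₀ (by positivity)]
          have := hμ0 x
          nlinarith }
    have hloc := N.localization (fun e => π e / ρ e) (fun x y => π (x, y)) (fun x y => (hπ _).le)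
      hπs (fun x => rfl) (fun e => div_nonneg (hπ e).le (hρ e))
      (fun e => by simp only [N, hc]; ring) φ (fun f z => by
        have h := hφ f (fun x => if x = z then 1 else 0)
        have e1 : ∑ e, π e * (((if e = f then 1 else 0) - sl ρ (φ f) e) *
              sl ρ (fun x => if x = z then 1 else 0) e)
            = π f * sl ρ (fun x => if x = z then 1 else 0) f
              - (∑ x, ∑ y, c x y * (φ f x - φ f y) * (if x = z then 1 else 0)
                - ∑ x, ∑ y, c x y * (φ f x - φ f y) * (if y = z then 1 else 0)) := by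
          have a1 : π f * sl ρ (fun x => if x = z then 1 else 0) f
              = ∑ e, π e * ((if e = f then 1 else 0) *
                sl ρ (fun x => if x = z then 1 else 0) e) := by simp
          rw [a1, ← Finset.sum_sub_distrib]
          simp_rw [← Finset.sum_sub_distrib]
          rw [← Fintype.sum_prod_type' (fun x y => c x y * (φ f x - φ f y) *
            (if x = z then 1 else 0) - c x y * (φ f x - φ f y) * (if y = z then 1 else 0)),
            ← Finset.sum_sub_distrib]
          refine Finset.sum_congr rfl fun e _ => ?_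
          simp only [sl, hc]
          ring
        have e2 : ∑ x, ∑ y, c x y * (φ f x - φ f y) * (if x = z then 1 else 0)
            = ∑ y, c z y * (φ f z - φ f y) := by
          rw [Finset.sum_eq_single z]
          · simp
          · intro x _ hx; simp [hx]
          · simp
        have e3 : ∑ x, ∑ y, c x y * (φ f x - φ f y) * (if y = z then 1 else 0)
            = - ∑ y, c z y * (φ f z - φ f y) := by
          rw [← Finset.sum_neg_distrib]
          refine Finset.sum_congr rfl fun x _ => ?_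
          rw [Finset.sum_eq_single z]
          · have : c x z = c z x := N.csymm x z
            rw [this]; simp; ring
          · intro y _ hy; simp [hy]
          · simp
        rw [e1, e2, e3] at h
        have e4 : π f * sl ρ (fun x => if x = z then 1 else 0) f
            = π f / ρ f * ((if z = f.1 then 1 else 0) - (if z = f.2 then 1 else 0)) := by
          simp only [sl, eq_comm (a := z)]
          ring
        rw [e4] at h
        show 2 * ∑ y, c z y * (φ f z - φ f y) = _
        linarith)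
    refine le_trans (le_of_eq ?_) hloc
    rw [Finset.sum_comm]
    refine Finset.sum_congr rfl fun e _ => ?_
    unfold row sl
    rw [Finset.mul_sum]
    refine Finset.sum_congr rfl fun f _ => ?_
    rw [abs_div, abs_of_nonneg (hρ e)]; ring
  · intro τ
    have h1 := horth τ (fun x => ∑ f, τ f * φ f x)
    simp_rw [← T_eq] at h1
    have h2 : ∑ e, π e * τ e ^ 2 = ∑ e, π e * (τ e - T ρ φ τ e) ^ 2
        + 2 * ∑ e, π e * ((τ e - T ρ φ τ e) * T ρ φ τ e) + ∑ e, π e * T ρ φ τ e ^ 2 := by
      rw [Finset.mul_sum, ← Finset.sum_add_distrib, ← Finset.sum_add_distrib]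
      exact Finset.sum_congr rfl fun e _ => by ring
    have h3 : 0 ≤ ∑ e, π e * T ρ φ τ e ^ 2 :=
      Finset.sum_nonneg fun e _ => mul_nonneg (hπ e).le (sq_nonneg _)
    linarith

theorem exists_oper [Nonempty X] (ρ : X × X → ℝ) (hρ : ∀ e, 0 ≤ ρ e)
    (hρs : ∀ x y, ρ (x, y) = ρ (y, x)) {Θ : Type*} [Fintype Θ] (β : Θ → ℝ) (hβ : ∀ θ, 0 ≤ β θ)
    (τ : Θ → X × X → ℝ) (c : ℝ) (hc : 0 < c) (hτ : ∀ e, ∑ θ, β θ * τ θ e ^ 2 ≤ c) :
    ∃ φ, Adm ρ φ ∧ (∀ e, row ρ φ e ≤ 16 * (8 * Real.log (Fintype.card X) + 1)) ∧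
      ∀ e, ∑ θ, β θ * (τ θ e - T ρ φ (τ θ) e) ^ 2 ≤ 16 * c := by
  set R : ℝ := 8 * Real.log (Fintype.card X) + 1 with hR
  have hn : (1 : ℝ) ≤ Fintype.card X := by exact_mod_cast Fintype.card_pos
  have hR0 : 0 < R := by have := Real.log_nonneg hn; linarith
  set q : (X × X → X → ℝ) → X × X → ℝ :=
    fun φ e => ∑ θ, β θ * (τ θ e - T ρ φ (τ θ) e) ^ 2 with hq
  set K : Set ((X × X) ⊕ (X × X) → ℝ) := {y | ∃ φ, Adm ρ φ ∧
    ∀ e, row ρ φ e ≤ 8 * R * y (Sum.inl e) ∧ q φ e ≤ 8 * c * y (Sum.inr e)} with hK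
  have hconv : Convex ℝ K := by
    rintro y1 ⟨φ1, ha1, h1⟩ y2 ⟨φ2, ha2, h2⟩ a b ha hb hab
    have hsl : ∀ f e, sl ρ (fun x => a * φ1 f x + b * φ2 f x) e
        = a * sl ρ (φ1 f) e + b * sl ρ (φ2 f) e := by
      intro f e; unfold sl; ring
    have hT : ∀ σ e, T ρ (fun f x => a * φ1 f x + b * φ2 f x) σ e
        = a * T ρ φ1 σ e + b * T ρ φ2 σ e := by
      intro σ e
      unfold T
      rw [Finset.mul_sum, Finset.mul_sum, ← Finset.sum_add_distrib]
      exact Finset.sum_congr rfl fun f _ => by rw [hsl]; ring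
    refine ⟨fun f x => a * φ1 f x + b * φ2 f x, ?_, fun e => ⟨?_, ?_⟩⟩
    · intro h e
      rw [hT, ha1, ha2, ← add_mul, hab, one_mul]
    · have : row ρ (fun f x => a * φ1 f x + b * φ2 f x) e ≤ a * row ρ φ1 e + b * row ρ φ2 e := by
        unfold row
        rw [Finset.mul_sum, Finset.mul_sum, ← Finset.sum_add_distrib]
        refine Finset.sum_le_sum fun f _ => ?_
        rw [hsl]
        refine (abs_add_le _ _).trans (le_of_eq ?_)
        rw [abs_mul, abs_mul, abs_of_nonneg ha, abs_of_nonneg hb]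
      have k1 := mul_le_mul_of_nonneg_left (h1 e).1 ha
      have k2 := mul_le_mul_of_nonneg_left (h2 e).1 hb
      simp only [Pi.add_apply, Pi.smul_apply, smul_eq_mul]
      linarith
    · have : q (fun f x => a * φ1 f x + b * φ2 f x) e ≤ a * q φ1 e + b * q φ2 e := by
        simp only [hq]
        rw [Finset.mul_sum, Finset.mul_sum, ← Finset.sum_add_distrib]
        refine Finset.sum_le_sum fun θ _ => ?_
        rw [hT]
        have hb' : b = 1 - a := by linarith
        have k := mul_nonneg (hβ θ) (mul_nonneg (mul_nonneg ha hb)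
          (sq_nonneg (T ρ φ1 (τ θ) e - T ρ φ2 (τ θ) e)))
        subst hb'
        nlinarith
      have k1 := mul_le_mul_of_nonneg_left (h1 e).2 ha
      have k2 := mul_le_mul_of_nonneg_left (h2 e).2 hb
      simp only [Pi.add_apply, Pi.smul_apply, smul_eq_mul]
      linarith
  obtain ⟨y, ⟨φ, ha, hy⟩, hy2⟩ := minimax K hconv (by
    intro w hw hw1
    set π0 : X × X → ℝ := fun e => w (Sum.inl e) + w (Sum.inr e) with hπ0
    have hπ00 : ∀ e, 0 ≤ π0 e := fun e => add_nonneg (hw _) (hw _)
    have hπ01 : ∑ e, π0 e = 1 := by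
      rw [← hw1, Fintype.sum_sum_type, ← Finset.sum_add_distrib]
    have hN : (0 : ℝ) < Fintype.card (X × X) := by exact_mod_cast Fintype.card_pos
    set π : X × X → ℝ := fun e => (π0 e + π0 e.swap) / 4 + 1 / (2 * Fintype.card (X × X)) with hπ
    have hπp : ∀ e, 0 < π e := fun e => by
      have := hπ00 e; have := hπ00 e.swap
      simp only [hπ]; positivity
    have hπ4 : ∀ e, π0 e ≤ 4 * π e := fun e => by
      have := hπ00 e.swap
      have : 0 < 1 / (2 * (Fintype.card (X × X) : ℝ)) := by positivity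
      simp only [hπ]; linarith
    have hπ1 : ∑ e, π e = 1 := by
      simp only [hπ]
      rw [Finset.sum_add_distrib, ← Finset.sum_div, Finset.sum_add_distrib, hπ01]
      have : ∑ e : X × X, π0 e.swap = 1 := by
        rw [← hπ01]; exact Equiv.sum_comp (Equiv.prodComm X X) π0
      rw [this, Finset.sum_const, Finset.card_univ, nsmul_eq_mul]
      field_simp
      norm_num
    obtain ⟨φ, ha, hrow, hL⟩ := elec ρ π hρ hρs hπp
      (fun x y => by simp only [hπ, Prod.swap]; ring) hπ1
    refine ⟨Sum.elim (fun e => row ρ φ e / (8 * R)) (fun e => q φ e / (8 * c)),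
      ⟨φ, ha, fun e => ⟨le_of_eq ?_, le_of_eq ?_⟩⟩, ?_⟩
    · simp only [Sum.elim_inl]; field_simp
    · simp only [Sum.elim_inr]; field_simp
    · rw [Fintype.sum_sum_type]
      simp only [Sum.elim_inl, Sum.elim_inr]
      have row0 : ∀ e, 0 ≤ row ρ φ e := fun e => Finset.sum_nonneg fun f _ => abs_nonneg _
      have q0 : ∀ e, 0 ≤ q φ e := fun e =>
        Finset.sum_nonneg fun θ _ => mul_nonneg (hβ θ) (sq_nonneg _)
      have k1 : ∑ e, w (Sum.inl e) * (row ρ φ e / (8 * R)) ≤ 1 / 2 := by
        have : ∑ e, w (Sum.inl e) * (row ρ φ e / (8 * R))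
            ≤ ∑ e, (π e * row ρ φ e) / (2 * R) := by
          refine Finset.sum_le_sum fun e _ => ?_
          have b1 : w (Sum.inl e) ≤ 4 * π e := by
            have := hπ4 e; have := hw (Sum.inr e); simp only [hπ0] at *; linarith
          have b2 := mul_le_mul_of_nonneg_right b1 (div_nonneg (row0 e) (show 0 ≤ 8 * R by linarith))
          refine b2.trans (le_of_eq ?_)
          field_simp; ring
        rw [← Finset.sum_div] at this
        refine this.trans ?_
        rw [div_le_iff₀ (by linarith)]; linarith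
      have k2 : ∑ e, w (Sum.inr e) * (q φ e / (8 * c)) ≤ 1 / 2 := by
        have : ∑ e, w (Sum.inr e) * (q φ e / (8 * c)) ≤ ∑ e, (π e * q φ e) / (2 * c) := by
          refine Finset.sum_le_sum fun e _ => ?_
          have b1 : w (Sum.inr e) ≤ 4 * π e := by
            have := hπ4 e; have := hw (Sum.inl e); simp only [hπ0] at *; linarith
          have b2 := mul_le_mul_of_nonneg_right b1 (div_nonneg (q0 e) (show 0 ≤ 8 * c by linarith))
          refine b2.trans (le_of_eq ?_)
          field_simp; ring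
        rw [← Finset.sum_div] at this
        refine this.trans ?_
        have b3 : ∑ e, π e * q φ e ≤ c := by
          have c1 : ∑ e, π e * q φ e = ∑ θ, β θ * ∑ e, π e * (τ θ e - T ρ φ (τ θ) e) ^ 2 := by
            simp only [hq]
            simp_rw [Finset.mul_sum]
            rw [Finset.sum_comm]
            exact Finset.sum_congr rfl fun θ _ => Finset.sum_congr rfl fun e _ => by ring
          have c2 : ∑ θ, β θ * ∑ e, π e * τ θ e ^ 2 = ∑ e, π e * ∑ θ, β θ * τ θ e ^ 2 := by
            simp_rw [Finset.mul_sum]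
            rw [Finset.sum_comm]
            exact Finset.sum_congr rfl fun θ _ => Finset.sum_congr rfl fun e _ => by ring
          have c3 : ∑ e, π e * ∑ θ, β θ * τ θ e ^ 2 ≤ ∑ e, π e * c :=
            Finset.sum_le_sum fun e _ => mul_le_mul_of_nonneg_left (hτ e) (hπp e).le
          rw [← Finset.sum_mul, hπ1, one_mul, ← c2] at c3
          rw [c1]
          exact le_trans (Finset.sum_le_sum fun θ _ => mul_le_mul_of_nonneg_left (hL _) (hβ θ)) c3
        rw [div_le_iff₀ (by linarith)]; linarith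
      linarith)
  refine ⟨φ, ha, fun e => ?_, fun e => ?_⟩
  · have := (hy e).1
    have := hy2 (Sum.inl e)
    nlinarith
  · have h1 := (hy e).2
    have := hy2 (Sum.inr e)
    simp only [hq] at h1
    nlinarith

end Crest.Agent.DR
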