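import Crest.Agent.DR.Minimax

/-! Finite subsets of `L^p(μ)` are almost isometric to subsets of a finite-dimensional `ℓ^p`. -/

set_option autoImplicit false
set_option linter.unusedSectionVars false
set_option linter.unusedVariables false
open Finset MeasureTheory
open scoped ENNReal

namespace Crest.Agent.DR

lemma norm_rpow_eq {α : Type*} [MeasurableSpace α] {μ : Measure α} {p : ℝ≥0∞} [Fact (1 ≤ p)]
    (hptop : p ≠ ⊤) (f g : Lp ℝ p μ) :
    Integrable (fun ω => |f ω - g ω| ^ p.toReal) μ ∧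
      ‖f - g‖ ^ p.toReal = ∫ ω, |f ω - g ω| ^ p.toReal ∂μ := by
  have hp0 : p ≠ 0 := (zero_lt_one.trans_le (Fact.out : 1 ≤ p)).ne'
  have hq : 0 < p.toReal := ENNReal.toReal_pos hp0 hptop
  have hae : (fun ω => ‖(f - g) ω‖ ^ p.toReal) =ᵐ[μ] fun ω => |f ω - g ω| ^ p.toReal := by
    filter_upwards [Lp.coeFn_sub f g] with ω hω
    rw [hω]; rfl
  have hm := Lp.memLp (f - g)
  refine ⟨(hm.integrable_norm_rpow hp0 hptop).congr hae, ?_⟩
  have h0 : 0 ≤ ∫ ω, ‖(f - g) ω‖ ^ p.toReal ∂μ :=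
    integral_nonneg fun ω => Real.rpow_nonneg (norm_nonneg _) _
  rw [Lp.norm_def, hm.eLpNorm_eq_integral_rpow_norm hp0 hptop,
    ENNReal.toReal_ofReal (Real.rpow_nonneg h0 _), Real.rpow_inv_rpow h0 hq.ne',
    integral_congr_ae hae]

theorem reduce {α : Type*} [MeasurableSpace α] {μ : Measure α} {p : ℝ≥0∞} [Fact (1 ≤ p)]
    (hptop : p ≠ ⊤) {n : ℕ} (hn : 0 < n) (x : Fin n → Lp ℝ p μ) (hx : Function.Injective x)
    {ε : ℝ} (hε : 0 < ε) :
    ∃ (Ω : Type) (_ : Fintype Ω) (h : Ω → Fin n → ℝ), ∀ i j,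
      (1 - 2 * ε) * ‖x i - x j‖ ^ p.toReal ≤ ∑ ω, |h ω i - h ω j| ^ p.toReal ∧
      ∑ ω, |h ω i - h ω j| ^ p.toReal ≤ (1 + 2 * ε) * ‖x i - x j‖ ^ p.toReal := by
  classical
  have hp0 : p ≠ 0 := (zero_lt_one.trans_le (Fact.out : 1 ≤ p)).ne'
  have hq : 0 < p.toReal := ENNReal.toReal_pos hp0 hptop
  set q := p.toReal with hq'
  set D : Fin n × Fin n → ℝ := fun e => ‖x e.1 - x e.2‖ ^ q with hD
  have hD0 : ∀ e, 0 ≤ D e := fun e => Real.rpow_nonneg (norm_nonneg _) _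
  have : Nonempty (Fin n) := ⟨⟨0, hn⟩⟩
  set K : Set ((Fin n × Fin n) ⊕ (Fin n × Fin n) → ℝ) := {y | ∃ (Ω : Type) (_ : Fintype Ω)
    (h : Ω → Fin n → ℝ), ∀ e : Fin n × Fin n,
      ∑ ω, |h ω e.1 - h ω e.2| ^ q - D e ≤ ε * D e * y (Sum.inl e) ∧
      D e - ∑ ω, |h ω e.1 - h ω e.2| ^ q ≤ ε * D e * y (Sum.inr e)} with hK
  have hscale : ∀ a : ℝ, 0 ≤ a → ∀ s t : ℝ, |a ^ (1 / q) * s - a ^ (1 / q) * t| ^ q
      = a * |s - t| ^ q := by
    intro a ha s t
    rw [← mul_sub, abs_mul, abs_of_nonneg (Real.rpow_nonneg ha _),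
      Real.mul_rpow (Real.rpow_nonneg ha _) (abs_nonneg _), ← Real.rpow_mul ha,
      one_div_mul_cancel hq.ne', Real.rpow_one]
  have hconv : Convex ℝ K := by
    rintro y1 ⟨Ω1, i1, h1, H1⟩ y2 ⟨Ω2, i2, h2, H2⟩ a b ha hb hab
    refine ⟨Ω1 ⊕ Ω2, inferInstance, Sum.elim (fun ω i => a ^ (1 / q) * h1 ω i)
      (fun ω i => b ^ (1 / q) * h2 ω i), fun e => ?_⟩
    rw [Fintype.sum_sum_type]
    simp only [Sum.elim_inl, Sum.elim_inr, hscale a ha, hscale b hb, ← Finset.mul_sum,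
      Pi.add_apply, Pi.smul_apply, smul_eq_mul]
    have k1 := mul_le_mul_of_nonneg_left (H1 e).1 ha
    have k2 := mul_le_mul_of_nonneg_left (H2 e).1 hb
    have k3 := mul_le_mul_of_nonneg_left (H1 e).2 ha
    have k4 := mul_le_mul_of_nonneg_left (H2 e).2 hb
    have k5 : D e = a * D e + b * D e := by rw [← add_mul, hab, one_mul]
    constructor <;> linarith
  obtain ⟨y, ⟨Ω, iΩ, h, H⟩, hy⟩ := minimax K hconv (by
    intro w hw hw1
    set v : Fin n × Fin n → ℝ := fun e => (w (Sum.inl e) - w (Sum.inr e)) / (ε * D e) with hv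
    have main : ∃ (Ω : Type) (_ : Fintype Ω) (h : Ω → Fin n → ℝ),
        ∑ e, v e * (∑ ω, |h ω e.1 - h ω e.2| ^ q - D e) ≤ 1 := by
      by_cases hc : ∀ g : Fin n → ℝ, 0 ≤ ∑ e, v e * |g e.1 - g e.2| ^ q
      · refine ⟨Empty, inferInstance, fun ω => ω.elim, ?_⟩
        have h1 : ∑ e, v e * D e = ∫ ω, ∑ e, v e * |x e.1 ω - x e.2 ω| ^ q ∂μ := by
          rw [integral_finsetSum _ (fun e _ => (norm_rpow_eq hptop (x e.1) (x e.2)).1.const_mul _)]
          refine Finset.sum_congr rfl fun e _ => ?_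
          rw [integral_const_mul, ← (norm_rpow_eq hptop (x e.1) (x e.2)).2]
        have h2 : 0 ≤ ∑ e, v e * D e := by
          rw [h1]; exact integral_nonneg fun ω => hc (fun i => x i ω)
        simp only [Finset.univ_eq_empty, Finset.sum_empty, zero_sub, mul_neg,
          Finset.sum_neg_distrib]
        linarith
      · push Not at hc
        obtain ⟨g, hg⟩ := hc
        set S := ∑ e, v e * |g e.1 - g e.2| ^ q with hS
        set a := |∑ e, v e * D e| / (-S) with ha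
        have ha0 : 0 ≤ a := div_nonneg (abs_nonneg _) (by linarith)
        refine ⟨Unit, inferInstance, fun _ i => a ^ (1 / q) * g i, ?_⟩
        simp only [Finset.univ_unique, Finset.sum_singleton, hscale a ha0, mul_sub,
          Finset.sum_sub_distrib]
        have h1 : ∑ e, v e * (a * |g e.1 - g e.2| ^ q) = a * S := by
          rw [hS, Finset.mul_sum]; exact Finset.sum_congr rfl fun e _ => by ring
        have h2 : a * S = -|∑ e, v e * D e| := by rw [ha]; field_simp [hg.ne]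
        have h3 := neg_abs_le (∑ e, v e * D e)
        linarith
    obtain ⟨Ω, iΩ, h, H⟩ := main
    have hcancel : ∀ e : Fin n × Fin n, ε * D e * ((∑ ω, |h ω e.1 - h ω e.2| ^ q - D e) / (ε * D e))
        = ∑ ω, |h ω e.1 - h ω e.2| ^ q - D e := by
      rintro ⟨i, j⟩
      by_cases hij : i = j
      · subst hij; simp [hD, Real.zero_rpow hq.ne']
      · have : 0 < D (i, j) :=
          Real.rpow_pos_of_pos (norm_pos_iff.2 (sub_ne_zero.2 fun h => hij (hx h))) _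
        field_simp
    refine ⟨Sum.elim (fun e => (∑ ω, |h ω e.1 - h ω e.2| ^ q - D e) / (ε * D e))
      (fun e => -((∑ ω, |h ω e.1 - h ω e.2| ^ q - D e) / (ε * D e))),
      ⟨Ω, iΩ, h, fun e => ⟨?_, ?_⟩⟩, ?_⟩
    · simp only [Sum.elim_inl]; rw [hcancel]
    · simp only [Sum.elim_inr]; rw [mul_neg, hcancel]; linarith
    · rw [Fintype.sum_sum_type, ← Finset.sum_add_distrib]
      refine le_trans (le_of_eq (Finset.sum_congr rfl fun e _ => ?_)) H
      simp only [Sum.elim_inl, Sum.elim_inr, hv]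
      ring)
  refine ⟨Ω, iΩ, h, fun i j => ?_⟩
  obtain ⟨k1, k2⟩ := H (i, j)
  have k0 : 0 ≤ ε * D (i, j) := mul_nonneg hε.le (hD0 _)
  have k3 := mul_le_mul_of_nonneg_left (hy (Sum.inl (i, j))).le k0
  have k4 := mul_le_mul_of_nonneg_left (hy (Sum.inr (i, j))).le k0
  simp only [hD] at k1 k2 k3 k4
  constructor <;> linarith

end Crest.Agent.DR
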